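import Vale.Agent.N034.Count

/-!
Random levels: the probability of the bad event, and the fractional cost.
-/

set_option linter.all false

namespace Vale.Agent.N034

open Finset Vale.Agent.P034

variable {X : Type*} [Fintype X] [DecidableEq X]

/-- Probability of level `j` for a point of parameter `q` whose last level is `J`. -/
noncomputable def lv (q : ℝ) (J j : ℕ) : ℝ :=
  if j < J then aa j * q else 1 - ∑ i ∈ range J, aa i * q

theorem sum_lv (q : ℝ) (J : ℕ) : ∑ j ∈ range (J + 1), lv q J j = 1 := by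
  rw [Finset.sum_range_succ]
  have h1 : ∑ j ∈ range J, lv q J j = ∑ i ∈ range J, aa i * q := by
    apply Finset.sum_congr rfl
    intro j hj
    rw [mem_range] at hj
    simp [lv, hj]
  rw [h1]
  simp [lv]

theorem lv_nonneg (q : ℝ) (hq : 0 ≤ q) (J : ℕ) (hJ : ∑ i ∈ range J, aa i * q ≤ 1)
    (j : ℕ) : 0 ≤ lv q J j := by
  unfold lv
  split_ifs
  · exact mul_nonneg (aa_pos j).le hq
  · linarith only [hJ]

theorem lv_mul_ww (q : ℝ) (J j : ℕ) (hj : j < J) : lv q J j * ww j = q := by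
  unfold lv ww
  rw [if_pos hj]
  have := aa_pos j
  field_simp

/-- the number of levels -/
theorem exists_J (q : ℝ) (hq : 0 < q) :
    ∃ J : ℕ, ∑ i ∈ range J, aa i * q ≤ 1 ∧ 1 ≤ ∑ i ∈ range (J + 1), aa i * q := by
  have hex : ∃ J : ℕ, 1 ≤ ∑ i ∈ range (J + 1), aa i * q := by
    obtain ⟨n, hn⟩ := pow_unbounded_of_one_lt (1 / q) (show (1 : ℝ) < 80 by norm_num)
    refine ⟨n + 1, ?_⟩
    rw [div_lt_iff₀ hq] at hn
    rw [Finset.sum_range_succ]
    have h0 : 0 ≤ ∑ i ∈ range (n + 1), aa i * q :=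
      Finset.sum_nonneg (fun i _ => mul_nonneg (aa_pos i).le hq.le)
    simp only [aa] at h0 ⊢
    nlinarith only [hn, h0]
  classical
  refine ⟨Nat.find hex, ?_, Nat.find_spec hex⟩
  rcases Nat.eq_zero_or_pos (Nat.find hex) with h0 | h0
  · rw [h0]; simp
  · have hlt := Nat.find_min hex (Nat.sub_lt h0 one_pos)
    push Not at hlt
    rw [Nat.sub_add_cancel (show 1 ≤ Nat.find hex from h0)] at hlt
    exact hlt.le

theorem lv_le (q : ℝ) (J j : ℕ) (hj : j ≤ J)
    (hJ : 1 ≤ ∑ i ∈ range (J + 1), aa i * q) : lv q J j ≤ aa j * q := by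
  unfold lv
  split_ifs with h
  · exact le_rfl
  · have : j = J := by omega
    subst this
    rw [Finset.sum_range_succ] at hJ
    linarith only [hJ]

/-- The value of level `j`. -/
noncomputable def vv (j : ℕ) : ℝ := (11 / 8) ^ 4 * (8 / 11) ^ ff j

theorem vv_pos (j : ℕ) : 0 < vv j := by unfold vv; positivity

theorem exp_bound (q : ℝ) (hq : 0 < q) (J : ℕ)
    (hJ : 1 ≤ ∑ i ∈ range (J + 1), aa i * q) :
    ∑ j ∈ range (J + 1), lv q J j * vv j ≤ 97 * q := by
  have h1 : ∀ j ∈ range (J + 1), lv q J j * vv j ≤ aa j * vv j * q := by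
    intro j hj
    rw [mem_range] at hj
    have h2 := mul_le_mul_of_nonneg_right (lv_le q J j (by omega) hJ) (vv_pos j).le
    linarith only [h2]
  refine (Finset.sum_le_sum h1).trans ?_
  rw [← Finset.sum_mul]
  apply mul_le_mul_of_nonneg_right _ hq.le
  rw [Finset.sum_range_succ']
  have h2 : ∀ j ∈ range J, aa (j + 1) * vv (j + 1)
      ≤ 290 * (11 / 8) ^ 4 * (8 / 11) ^ 12 * (1 / 10 : ℝ) ^ j := by
    intro j _
    unfold vv
    simp only [aa, ff]
    have h3 : (80 : ℝ) ^ j * ((8 / 11) ^ 21) ^ j ≤ (1 / 10) ^ j := by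
      rw [← mul_pow]
      exact pow_le_pow_left₀ (by positivity) (by norm_num) j
    rw [pow_add, pow_mul]
    have h4 := mul_le_mul_of_nonneg_left h3
      (show (0 : ℝ) ≤ 290 * (11 / 8) ^ 4 * (8 / 11) ^ 12 by positivity)
    refine le_trans (le_of_eq ?_) h4
    ring
  have h3 := Finset.sum_le_sum h2
  rw [← Finset.mul_sum] at h3
  have h4 := mul_le_mul_of_nonneg_left (geom_le (1 / 10) (by norm_num) (by norm_num) J)
    (show (0 : ℝ) ≤ 290 * (11 / 8) ^ 4 * (8 / 11) ^ 12 by positivity)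
  have h5 : aa 0 * vv 0 + 290 * (11 / 8) ^ 4 * (8 / 11) ^ 12 * (1 / (1 - 1 / 10)) ≤ 97 := by
    unfold vv
    simp only [aa, ff]
    norm_num
  linarith only [h3, h4, h5]

theorem inner_sum (q : X → ℝ) (hq : ∀ x, 0 ≤ q x) (J : X → ℕ)
    (hJ : ∀ x, ∑ i ∈ range (J x), aa i * q x ≤ 1)
    (ψ : X → ℕ) (T : Finset X) (hT : ∀ x ∈ T, ψ x < J x)
    (S : Finset (X → ℕ))
    (hS : ∀ φ ∈ S, (∀ x, ψ x ≤ φ x) ∧ (∀ x, φ x ≤ J x) ∧ diffSet φ ψ = T) :
    ∑ φ ∈ S, (∏ x, lv (q x) (J x) (φ x)) * ∏ x ∈ diffSet φ ψ, q x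
      ≤ (∏ x, lv (q x) (J x) (ψ x)) * ∏ x ∈ T, ww (ψ x) := by
  have hlv : ∀ x j, 0 ≤ lv (q x) (J x) j := fun x => lv_nonneg (q x) (hq x) (J x) (hJ x)
  have h1 : ∑ φ ∈ S, (∏ x, lv (q x) (J x) (φ x)) * ∏ x ∈ diffSet φ ψ, q x
      = (∑ φ ∈ S, ∏ x, lv (q x) (J x) (φ x)) * ∏ x ∈ T, q x := by
    rw [Finset.sum_mul]
    apply Finset.sum_congr rfl
    intro φ hφ
    rw [(hS φ hφ).2.2]
  have h2 : ∑ φ ∈ S, ∏ x, lv (q x) (J x) (φ x) ≤
      ∑ φ ∈ Fintype.piFinset (fun x => if x ∈ T then range (J x + 1) else {ψ x}),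
        ∏ x, lv (q x) (J x) (φ x) := by
    apply Finset.sum_le_sum_of_subset_of_nonneg
    · intro φ hφ
      obtain ⟨a, b, c⟩ := hS φ hφ
      rw [Fintype.mem_piFinset]
      intro x
      split_ifs with hx
      · rw [mem_range]; have := b x; omega
      · rw [mem_singleton]
        have : ¬ ψ x < φ x := by
          rw [← mem_diffSet, c]; exact hx
        have := a x
        omega
    · intro φ _ _
      exact Finset.prod_nonneg (fun x _ => hlv x _)
  have h3 : ∑ φ ∈ Fintype.piFinset (fun x => if x ∈ T then range (J x + 1) else {ψ x}),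
        ∏ x, lv (q x) (J x) (φ x) = ∏ x, (if x ∈ T then 1 else lv (q x) (J x) (ψ x)) := by
    rw [← Finset.prod_univ_sum (fun x => if x ∈ T then range (J x + 1) else {ψ x})
      (fun x j => lv (q x) (J x) j)]
    apply Finset.prod_congr rfl
    intro x _
    split_ifs
    · exact sum_lv (q x) (J x)
    · simp
  have h4 : (∏ x, (if x ∈ T then 1 else lv (q x) (J x) (ψ x))) * ∏ x ∈ T, q x
      = (∏ x, lv (q x) (J x) (ψ x)) * ∏ x ∈ T, ww (ψ x) := by
    have h5 : ∏ x ∈ T, q x = ∏ x, (if x ∈ T then q x else 1) := by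
      rw [Finset.prod_ite_mem]; simp only [univ_inter]
    have h6 : ∏ x ∈ T, ww (ψ x) = ∏ x, (if x ∈ T then ww (ψ x) else 1) := by
      rw [Finset.prod_ite_mem]; simp only [univ_inter]
    rw [h5, h6, ← Finset.prod_mul_distrib, ← Finset.prod_mul_distrib]
    apply Finset.prod_congr rfl
    intro x _
    split_ifs with hx
    · rw [lv_mul_ww (q x) (J x) _ (hT x hx), one_mul]
    · rfl
  rw [h1]
  calc (∑ φ ∈ S, ∏ x, lv (q x) (J x) (φ x)) * ∏ x ∈ T, q x
      ≤ (∏ x, (if x ∈ T then 1 else lv (q x) (J x) (ψ x))) * ∏ x ∈ T, q x := by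
        apply mul_le_mul_of_nonneg_right (h2.trans h3.le)
          (Finset.prod_nonneg (fun x _ => hq x))
    _ = _ := h4

open Classical in
noncomputable def sel (J : ℕ) (F : Finset (Finset X)) (lam : Finset X → X → ℝ) (ψ : X → ℕ)
    (t : ℕ → ℕ) : X → ℝ :=
  if h : ∃ H' ∈ F, PP J (lam H') ψ (fun j => ∑ i ∈ range (j + 1), t i) ≤ 4 then
    lam h.choose else 0

open Classical in
noncomputable def NN (J : ℕ) (F : Finset (Finset X)) (lam : Finset X → X → ℝ) (ψ : X → ℕ)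
    (t : ℕ → ℕ) : Finset X :=
  univ.filter (fun x => 0 < ∑ i ∈ range (ψ x + 1), t i ∧
    ord (sel J F lam ψ t) (mm (ψ x) ((∑ i ∈ range (ψ x + 1), t i) - 1)) < sel J F lam ψ t x)

theorem NN_card (J : ℕ) (F : Finset (Finset X)) (lam : Finset X → X → ℝ) (ψ : X → ℕ)
    (t : ℕ → ℕ) (j : ℕ) :
    ((NN J F lam ψ t).filter (fun x => ψ x = j)).card ≤ MM j (∑ i ∈ range (j + 1), t i) := by
  unfold MM
  split_ifs with h0
  · have : (NN J F lam ψ t).filter (fun x => ψ x = j) = ∅ := by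
      rw [Finset.filter_eq_empty_iff]
      intro x hx hxj
      unfold NN at hx
      rw [mem_filter, hxj] at hx
      omega
    rw [this]; simp
  · apply card_gt_ord (sel J F lam ψ t)
    intro x hx
    rw [mem_filter] at hx
    obtain ⟨hx, hxj⟩ := hx
    unfold NN at hx
    rw [mem_filter, hxj] at hx
    exact hx.2.2

theorem exists_valid' (J : ℕ) (F : Finset (Finset X)) (lam : Finset X → X → ℝ)
    (hl : ∀ H ∈ F, ∀ x, 0 ≤ lam H x) (hsum : ∀ H ∈ F, ∑ x, lam H x ≤ 1)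
    (hsupp : ∀ H ∈ F, ∀ x, x ∉ H → lam H x = 0) (φ : X → ℕ) (hφ : ∀ x, φ x ≤ J)
    (hbad : ∀ H ∈ F, 4 < ∑ x, lam H x * (ff (φ x) : ℝ))
    (H : Finset X) (hH : H ∈ F) :
    ∃ ψ : X → ℕ, (∀ x, ψ x ≤ φ x) ∧ diffSet φ ψ ⊆ H ∧ (diffSet φ ψ).Nonempty ∧
      diffSet φ ψ ⊆ NN J F lam ψ (prof ψ (diffSet φ ψ)) := by
  obtain ⟨ψ, h1, h2, h3, h4⟩ := exists_valid J F lam hl hsum hsupp φ hφ H hH
  have hcnt : (fun j => ∑ i ∈ range (j + 1), prof ψ (diffSet φ ψ) i) = cnt φ ψ := by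
    funext j; rw [cnt_eq]
  refine ⟨ψ, h1, h2, ?_, ?_⟩
  · by_contra hne
    rw [Finset.not_nonempty_iff_eq_empty] at hne
    obtain ⟨H', hH', hA⟩ := h3
    have hψφ : ∀ x, ψ x = φ x := by
      intro x
      have : ¬ ψ x < φ x := by
        rw [← mem_diffSet, hne]; simp
      have := h1 x
      omega
    have hA2 : ∑ x, lam H' x * (ff (φ x) : ℝ) ≤ PP J (lam H') ψ (cnt φ ψ) := by
      unfold PP
      have e1 : ∑ x, lam H' x * (ff (φ x) : ℝ) = ∑ x, lam H' x * (ff (ψ x) : ℝ) := by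
        apply Finset.sum_congr rfl
        intro x _
        rw [hψφ x]
      rw [e1]
      have e2 : 0 ≤ ∑ j ∈ range J,
          (dd j : ℝ) * ∑ i ∈ range (cnt φ ψ j), ord (lam H') (mm j i) := by
        apply Finset.sum_nonneg
        intro j _
        exact mul_nonneg (by positivity) (Finset.sum_nonneg (fun _ _ => ord_nonneg _ _))
      linarith only [e2]
    have := hbad H' hH'
    linarith only [hA, hA2, this]
  · have hex : ∃ H' ∈ F, PP J (lam H') ψ
        (fun j => ∑ i ∈ range (j + 1), prof ψ (diffSet φ ψ) i) ≤ 4 := by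
      rw [hcnt]; exact h3
    obtain ⟨H'', hHF, hHA, hsel⟩ : ∃ H'' ∈ F, PP J (lam H'') ψ (cnt φ ψ) ≤ 4 ∧
        sel J F lam ψ (prof ψ (diffSet φ ψ)) = lam H'' := by
      refine ⟨hex.choose, hex.choose_spec.1, ?_, ?_⟩
      · exact (congrArg (PP J (lam hex.choose) ψ) hcnt).ge.trans hex.choose_spec.2
      · unfold sel
        rw [dif_pos hex]
    intro x hx
    rw [mem_diffSet] at hx
    have h5 := h4 _ hHF hHA x hx
    unfold NN
    rw [mem_filter]
    refine ⟨mem_univ _, ?_, ?_⟩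
    · rw [← cnt_eq]
      exact cnt_pos φ ψ x hx
    · rw [← cnt_eq, hsel]
      exact h5

theorem bad_prob (q : X → ℝ) (hq : ∀ x, 0 < q x) (J : X → ℕ)
    (hJ : ∀ x, ∑ i ∈ range (J x), aa i * q x ≤ 1)
    (F : Finset (Finset X)) (lam : Finset X → X → ℝ)
    (hl : ∀ H ∈ F, ∀ x, 0 ≤ lam H x) (hsum : ∀ H ∈ F, ∑ x, lam H x ≤ 1)
    (hsupp : ∀ H ∈ F, ∀ x, x ∉ H → lam H x = 0)
    (c : ℝ) (hns : ∀ G : Finset (Finset X), (∀ H ∈ F, ∃ S ∈ G, S ⊆ H) →
      c ≤ ∑ S ∈ G, ∏ x ∈ S, q x)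
    (B : Finset (X → ℕ))
    (hB : ∀ φ ∈ B, (∀ x, φ x ≤ J x) ∧ ∀ H ∈ F, 4 < ∑ x, lam H x * (ff (φ x) : ℝ)) :
    (∑ φ ∈ B, ∏ x, lv (q x) (J x) (φ x)) * c ≤ 1 / 4 := by
  classical
  have hlv : ∀ x j, 0 ≤ lv (q x) (J x) j :=
    fun x => lv_nonneg (q x) (hq x).le (J x) (hJ x)
  set J1 : ℕ := univ.sup J with hJ1
  set J0 : ℕ := J1 + 1 with hJ0
  have hJJ0 : ∀ x, J x ≤ J0 :=
    fun x => (Finset.le_sup (f := J) (mem_univ x)).trans (Nat.le_succ _)
  set Ω : Finset (X → ℕ) := Fintype.piFinset (fun x => range (J x + 1)) with hΩ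
  have hΩmem : ∀ φ : X → ℕ, φ ∈ Ω ↔ ∀ x, φ x ≤ J x := by
    intro φ
    rw [hΩ, Fintype.mem_piFinset]
    constructor
    · intro h x; have := h x; rw [mem_range] at this; omega
    · intro h x; have := h x; rw [mem_range]; omega
  let V : (X → ℕ) → (X → ℕ) → Prop := fun φ ψ =>
    (∀ x, ψ x ≤ φ x) ∧ (diffSet φ ψ).Nonempty ∧
      diffSet φ ψ ⊆ NN J0 F lam ψ (prof ψ (diffSet φ ψ))
  have hcost : ∀ φ ∈ B, c ≤ ∑ ψ ∈ Ω.filter (fun ψ => V φ ψ), ∏ x ∈ diffSet φ ψ, q x := by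
    intro φ hφ
    obtain ⟨hφJ, hbad⟩ := hB φ hφ
    have hcov := hns ((Ω.filter (fun ψ => V φ ψ)).image (fun ψ => diffSet φ ψ)) (by
      intro H hH
      obtain ⟨ψ, h1, h2, h3, h4⟩ := exists_valid' J0 F lam hl hsum hsupp φ
        (fun x => (hφJ x).trans (hJJ0 x)) hbad H hH
      refine ⟨diffSet φ ψ, ?_, h2⟩
      rw [mem_image]
      refine ⟨ψ, ?_, rfl⟩
      rw [mem_filter, hΩmem]
      exact ⟨fun x => (h1 x).trans (hφJ x), h1, h3, h4⟩)
    refine hcov.trans ?_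
    rw [← Finset.sum_fiberwise_of_maps_to (g := fun ψ => diffSet φ ψ)
      (t := (Ω.filter (fun ψ => V φ ψ)).image (fun ψ => diffSet φ ψ))
      (fun ψ hψ => mem_image_of_mem _ hψ)]
    apply Finset.sum_le_sum
    intro S hS
    rw [mem_image] at hS
    obtain ⟨ψ, hψ, rfl⟩ := hS
    have hm : ψ ∈ (Ω.filter (fun ψ => V φ ψ)).filter
        (fun ψ' => diffSet φ ψ' = diffSet φ ψ) := by
      rw [mem_filter]; exact ⟨hψ, rfl⟩
    exact Finset.single_le_sum (f := fun ψ' => ∏ x ∈ diffSet φ ψ', q x)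
      (fun i _ => Finset.prod_nonneg (fun x _ => (hq x).le)) hm
  have h1 : (∑ φ ∈ B, ∏ x, lv (q x) (J x) (φ x)) * c ≤
      ∑ φ ∈ Ω, ∑ ψ ∈ Ω.filter (fun ψ => V φ ψ),
        (∏ x, lv (q x) (J x) (φ x)) * ∏ x ∈ diffSet φ ψ, q x := by
    rw [Finset.sum_mul]
    calc ∑ φ ∈ B, (∏ x, lv (q x) (J x) (φ x)) * c
        ≤ ∑ φ ∈ B, ∑ ψ ∈ Ω.filter (fun ψ => V φ ψ),
            (∏ x, lv (q x) (J x) (φ x)) * ∏ x ∈ diffSet φ ψ, q x := by
          apply Finset.sum_le_sum
          intro φ hφ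
          rw [← Finset.mul_sum]
          exact mul_le_mul_of_nonneg_left (hcost φ hφ)
            (Finset.prod_nonneg (fun x _ => hlv x _))
      _ ≤ _ := by
          apply Finset.sum_le_sum_of_subset_of_nonneg
          · intro φ hφ
            rw [hΩmem]
            exact (hB φ hφ).1
          · intro φ _ _
            apply Finset.sum_nonneg
            intro ψ _
            exact mul_nonneg (Finset.prod_nonneg (fun x _ => hlv x _))
              (Finset.prod_nonneg (fun x _ => (hq x).le))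
  have h2 : ∑ φ ∈ Ω, ∑ ψ ∈ Ω.filter (fun ψ => V φ ψ),
        (∏ x, lv (q x) (J x) (φ x)) * ∏ x ∈ diffSet φ ψ, q x
      = ∑ ψ ∈ Ω, ∑ φ ∈ Ω.filter (fun φ => V φ ψ),
        (∏ x, lv (q x) (J x) (φ x)) * ∏ x ∈ diffSet φ ψ, q x := by
    apply Finset.sum_comm'
    intro φ ψ
    simp only [mem_filter]
    tauto
  have h3 : ∀ ψ ∈ Ω, ∑ φ ∈ Ω.filter (fun φ => V φ ψ),
        (∏ x, lv (q x) (J x) (φ x)) * ∏ x ∈ diffSet φ ψ, q x
        ≤ (∏ x, lv (q x) (J x) (ψ x)) * (1 / 4) := by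
    intro ψ _
    have hc := count_bound J1 ψ (NN J0 F lam ψ) (fun t j => NN_card J0 F lam ψ t j)
    set W := univ.filter (fun T : Finset X => T.Nonempty ∧ (∀ x ∈ T, ψ x < J x) ∧
      T ⊆ NN J0 F lam ψ (prof ψ T)) with hW
    have hc' : ∑ T ∈ W, ∏ x ∈ T, ww (ψ x) ≤ 1 / 4 := by
      refine le_trans (Finset.sum_le_sum_of_subset_of_nonneg ?_ ?_) hc
      · intro T hT
        rw [hW, mem_filter] at hT
        rw [mem_filter]
        exact ⟨hT.1, hT.2.1, fun x hx => (hT.2.2.1 x hx).trans_le (hJJ0 x), hT.2.2.2⟩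
      · intro T _ _
        exact Finset.prod_nonneg (fun x _ => (ww_pos _).le)
    rw [← Finset.sum_fiberwise_of_maps_to (g := fun φ => diffSet φ ψ) (t := W)]
    · calc ∑ T ∈ W, ∑ φ ∈ (Ω.filter (fun φ => V φ ψ)).filter (fun φ => diffSet φ ψ = T),
            (∏ x, lv (q x) (J x) (φ x)) * ∏ x ∈ diffSet φ ψ, q x
          ≤ ∑ T ∈ W, (∏ x, lv (q x) (J x) (ψ x)) * ∏ x ∈ T, ww (ψ x) := by
            apply Finset.sum_le_sum
            intro T hT
            rw [hW, mem_filter] at hT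
            apply inner_sum q (fun x => (hq x).le) J hJ ψ T hT.2.2.1
            intro φ hφ
            rw [mem_filter, mem_filter, hΩmem] at hφ
            exact ⟨hφ.1.2.1, hφ.1.1, hφ.2⟩
        _ = (∏ x, lv (q x) (J x) (ψ x)) * ∑ T ∈ W, ∏ x ∈ T, ww (ψ x) := by
            rw [Finset.mul_sum]
        _ ≤ _ := mul_le_mul_of_nonneg_left hc' (Finset.prod_nonneg (fun x _ => hlv x _))
    · intro φ hφ
      rw [mem_filter, hΩmem] at hφ
      obtain ⟨hφJ, _, hne, hsub⟩ := hφ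
      rw [hW, mem_filter]
      refine ⟨mem_univ _, hne, ?_, hsub⟩
      intro x hx
      rw [mem_diffSet] at hx
      exact lt_of_lt_of_le hx (hφJ x)
  have h4 : ∑ ψ ∈ Ω, (∏ x, lv (q x) (J x) (ψ x)) * (1 / 4) = 1 / 4 := by
    rw [← Finset.sum_mul, hΩ,
      ← Finset.prod_univ_sum (fun x : X => range (J x + 1)) (fun x j => lv (q x) (J x) j)]
    simp only [sum_lv, prod_const_one, one_mul]
  have h5 := Finset.sum_le_sum h3
  rw [h4] at h5
  rw [h2] at h1
  linarith only [h1, h5]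

/-- The size-biased weights of the points of `H`. -/
noncomputable def lamS (g : Finset X → ℝ) (H : Finset X) (x : X) : ℝ :=
  (∑ S ∈ H.powerset, if x ∈ S then g S else 0) / ∑ S ∈ H.powerset, g S * S.card

theorem lamS_num (g : Finset X → ℝ) (H : Finset X) (f : X → ℝ) :
    ∑ x, (∑ S ∈ H.powerset, if x ∈ S then g S else 0) * f x
      = ∑ S ∈ H.powerset, g S * ∑ x ∈ S, f x := by
  simp only [Finset.sum_mul]
  rw [Finset.sum_comm]
  apply Finset.sum_congr rfl
  intro S _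
  simp only [ite_mul, zero_mul]
  rw [Finset.sum_ite_mem, Finset.univ_inter, Finset.mul_sum]

theorem lamS_sum (g : Finset X → ℝ) (H : Finset X) (f : X → ℝ) :
    ∑ x, lamS g H x * f x
      = (∑ S ∈ H.powerset, g S * ∑ x ∈ S, f x) / ∑ S ∈ H.powerset, g S * S.card := by
  rw [← lamS_num, Finset.sum_div]
  apply Finset.sum_congr rfl
  intro x _
  unfold lamS
  ring

theorem lamS_nonneg (g : Finset X → ℝ) (hg : ∀ S, 0 ≤ g S) (H : Finset X) (x : X) :
    0 ≤ lamS g H x := by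
  unfold lamS
  apply div_nonneg
  · apply Finset.sum_nonneg
    intro S _
    split_ifs
    exacts [hg S, le_rfl]
  · exact Finset.sum_nonneg (fun S _ => mul_nonneg (hg S) (by positivity))

theorem lamS_supp (g : Finset X → ℝ) (H : Finset X) (x : X) (hx : x ∉ H) : lamS g H x = 0 := by
  unfold lamS
  rw [Finset.sum_eq_zero, zero_div]
  intro S hS
  rw [if_neg (fun h => hx (mem_powerset.mp hS h))]

theorem lamS_sum_le (g : Finset X → ℝ) (H : Finset X) : ∑ x, lamS g H x ≤ 1 := by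
  have h := lamS_sum g H (fun _ => 1)
  simp only [mul_one, sum_const, nsmul_eq_mul] at h
  rw [h]
  exact div_self_le_one _

theorem prod_bound (φ : X → ℕ) (S : Finset X) :
    1 + Real.log (11 / 8) * (4 * S.card - ∑ x ∈ S, (ff (φ x) : ℝ)) ≤ ∏ x ∈ S, vv (φ x) := by
  have h1 : ∀ x, vv (φ x) = Real.exp (Real.log (11 / 8) * (4 - (ff (φ x) : ℝ))) := by
    intro x
    unfold vv
    have h2 : Real.log (11 / 8) * (4 - (ff (φ x) : ℝ))
        = ((4 : ℕ) : ℝ) * Real.log (11 / 8) + (ff (φ x) : ℝ) * Real.log (8 / 11) := by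
      have : Real.log (8 / 11) = - Real.log (11 / 8) := by
        rw [← Real.log_inv]; norm_num
      rw [this]; push_cast; ring
    rw [h2, Real.exp_add, Real.exp_nat_mul, Real.exp_nat_mul, Real.exp_log (by norm_num),
      Real.exp_log (by norm_num)]
  rw [Finset.prod_congr rfl (fun x _ => h1 x), ← Real.exp_sum, ← Finset.mul_sum,
    Finset.sum_sub_distrib, Finset.sum_const, nsmul_eq_mul, mul_comm (S.card : ℝ) 4, add_comm]
  exact Real.add_one_le_exp _

theorem good_bound (g : Finset X → ℝ) (hg : ∀ S, 0 ≤ g S) (H : Finset X)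
    (hH : 1 ≤ ∑ S ∈ H.powerset, g S) (φ : X → ℕ)
    (hgood : ∑ x, lamS g H x * (ff (φ x) : ℝ) ≤ 4) :
    1 ≤ ∑ S : Finset X, g S * ∏ x ∈ S, vv (φ x) := by
  rw [lamS_sum] at hgood
  have hD : 0 ≤ ∑ S ∈ H.powerset, g S * S.card :=
    Finset.sum_nonneg (fun S _ => mul_nonneg (hg S) (by positivity))
  have h0 : ∑ S ∈ H.powerset, g S * ∑ x ∈ S, (ff (φ x) : ℝ)
      ≤ 4 * ∑ S ∈ H.powerset, g S * S.card := by
    rcases hD.eq_or_lt with h | h
    · rw [← h, mul_zero]
      apply le_of_eq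
      apply Finset.sum_eq_zero
      intro S hS
      have h1 := (Finset.sum_eq_zero_iff_of_nonneg
        (fun S _ => mul_nonneg (hg S) (by positivity : (0 : ℝ) ≤ S.card))).mp h.symm S hS
      rcases mul_eq_zero.mp h1 with h2 | h2
      · rw [h2, zero_mul]
      · have h3 : S = ∅ := by
          rw [← Finset.card_eq_zero]; exact_mod_cast h2
        rw [h3]; simp
    · rwa [div_le_iff₀ h] at hgood
  have hlog : 0 ≤ Real.log (11 / 8) := Real.log_nonneg (by norm_num)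
  have h1 : ∑ S ∈ H.powerset, (g S + Real.log (11 / 8) *
      (4 * (g S * S.card) - g S * ∑ x ∈ S, (ff (φ x) : ℝ))) ≤
      ∑ S ∈ H.powerset, g S * ∏ x ∈ S, vv (φ x) := by
    apply Finset.sum_le_sum
    intro S _
    have h2 := mul_le_mul_of_nonneg_left (prod_bound φ S) (hg S)
    refine le_trans (le_of_eq ?_) h2
    ring
  rw [Finset.sum_add_distrib, ← Finset.mul_sum, Finset.sum_sub_distrib, ← Finset.mul_sum] at h1
  have h2 := mul_nonneg hlog (sub_nonneg.mpr h0)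
  have h3 : ∑ S ∈ H.powerset, g S * ∏ x ∈ S, vv (φ x) ≤
      ∑ S : Finset X, g S * ∏ x ∈ S, vv (φ x) := by
    apply Finset.sum_le_sum_of_subset_of_nonneg (Finset.subset_univ _)
    intro S _ _
    exact mul_nonneg (hg S) (Finset.prod_nonneg (fun x _ => (vv_pos _).le))
  linarith only [hH, h1, h2, h3]

/-- If no cover of `F` costs less than `c` at the vector `q`, then the cost `w` of a fractional
cover at the vector `97 q` satisfies `c (1 - w) ≤ 1 / 4`. -/
theorem core (F : Finset (Finset X)) (g : Finset X → ℝ) (hg : ∀ S, 0 ≤ g S)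
    (hF : ∀ H ∈ F, 1 ≤ ∑ S ∈ H.powerset, g S) (q : X → ℝ) (hq : ∀ x, 0 < q x)
    (c : ℝ) (hc : 0 ≤ c) (hns : ∀ G : Finset (Finset X), (∀ H ∈ F, ∃ S ∈ G, S ⊆ H) →
      c ≤ ∑ S ∈ G, ∏ x ∈ S, q x) :
    c * (1 - ∑ S : Finset X, g S * ∏ x ∈ S, (97 * q x)) ≤ 1 / 4 := by
  classical
  choose J hJ hJ2 using fun x => exists_J (q x) (hq x)
  have hlv : ∀ x j, 0 ≤ lv (q x) (J x) j :=
    fun x => lv_nonneg (q x) (hq x).le (J x) (hJ x)
  set Ω : Finset (X → ℕ) := Fintype.piFinset (fun x => range (J x + 1)) with hΩ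
  have hΩmem : ∀ φ : X → ℕ, φ ∈ Ω → ∀ x, φ x ≤ J x := by
    intro φ h x
    rw [hΩ, Fintype.mem_piFinset] at h
    have := h x
    rw [mem_range] at this
    omega
  have htot : ∑ φ ∈ Ω, ∏ x, lv (q x) (J x) (φ x) = 1 := by
    rw [hΩ, ← Finset.prod_univ_sum (fun x : X => range (J x + 1))
      (fun x j => lv (q x) (J x) j)]
    simp only [sum_lv, prod_const_one]
  have hbad := bad_prob q hq J hJ F (lamS g) (fun H _ x => lamS_nonneg g hg H x)
    (fun H hH => lamS_sum_le g H) (fun H _ x hx => lamS_supp g H x hx) c hns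
    (Ω.filter (fun φ => ∀ H ∈ F, 4 < ∑ x, lamS g H x * (ff (φ x) : ℝ))) (by
      intro φ hφ
      rw [mem_filter] at hφ
      exact ⟨hΩmem φ hφ.1, hφ.2⟩)
  set PB := ∑ φ ∈ Ω.filter (fun φ => ∀ H ∈ F, 4 < ∑ x, lamS g H x * (ff (φ x) : ℝ)),
    ∏ x, lv (q x) (J x) (φ x) with hPB
  have hgood : 1 - PB = ∑ φ ∈ Ω.filter
      (fun φ => ¬ ∀ H ∈ F, 4 < ∑ x, lamS g H x * (ff (φ x) : ℝ)), ∏ x, lv (q x) (J x) (φ x) := by
    have := Finset.sum_filter_add_sum_filter_not Ω
      (fun φ : X → ℕ => ∀ H ∈ F, 4 < ∑ x, lamS g H x * (ff (φ x) : ℝ))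
      (fun φ => ∏ x, lv (q x) (J x) (φ x))
    linarith only [htot, hPB, this]
  have hE1 : 1 - PB ≤ ∑ φ ∈ Ω, (∏ x, lv (q x) (J x) (φ x)) *
      ∑ S : Finset X, g S * ∏ x ∈ S, vv (φ x) := by
    rw [hgood]
    calc _ ≤ ∑ φ ∈ Ω.filter (fun φ => ¬ ∀ H ∈ F, 4 < ∑ x, lamS g H x * (ff (φ x) : ℝ)),
          (∏ x, lv (q x) (J x) (φ x)) * ∑ S : Finset X, g S * ∏ x ∈ S, vv (φ x) := by
          apply Finset.sum_le_sum
          intro φ hφ
          rw [mem_filter] at hφ
          obtain ⟨_, hφ2⟩ := hφ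
          push Not at hφ2
          obtain ⟨H, hH, hle⟩ := hφ2
          exact le_mul_of_one_le_right (Finset.prod_nonneg (fun x _ => hlv x _))
            (good_bound g hg H (hF H hH) φ hle)
      _ ≤ _ := by
          apply Finset.sum_le_sum_of_subset_of_nonneg (Finset.filter_subset _ _)
          intro φ _ _
          apply mul_nonneg (Finset.prod_nonneg (fun x _ => hlv x _))
          apply Finset.sum_nonneg
          intro S _
          exact mul_nonneg (hg S) (Finset.prod_nonneg (fun x _ => (vv_pos _).le))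
  have hE2 : ∑ φ ∈ Ω, (∏ x, lv (q x) (J x) (φ x)) *
      ∑ S : Finset X, g S * ∏ x ∈ S, vv (φ x)
      = ∑ S : Finset X, g S *
        ∏ x ∈ S, (∑ j ∈ range (J x + 1), lv (q x) (J x) j * vv j) := by
    calc ∑ φ ∈ Ω, (∏ x, lv (q x) (J x) (φ x)) *
          ∑ S : Finset X, g S * ∏ x ∈ S, vv (φ x)
        = ∑ φ ∈ Ω, ∑ S : Finset X, g S *
          ∏ x, (lv (q x) (J x) (φ x) * if x ∈ S then vv (φ x) else 1) := by
          apply Finset.sum_congr rfl
          intro φ _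
          rw [Finset.mul_sum]
          apply Finset.sum_congr rfl
          intro S _
          have hprod : ∏ x, (lv (q x) (J x) (φ x) * if x ∈ S then vv (φ x) else 1)
              = (∏ x, lv (q x) (J x) (φ x)) * ∏ x ∈ S, vv (φ x) := by
            rw [Finset.prod_mul_distrib]
            congr 1
            rw [Finset.prod_ite_mem, Finset.univ_inter]
          rw [hprod]
          ring
      _ = ∑ S : Finset X, ∑ φ ∈ Ω, g S *
          ∏ x, (lv (q x) (J x) (φ x) * if x ∈ S then vv (φ x) else 1) :=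
          Finset.sum_comm
      _ = _ := by
          apply Finset.sum_congr rfl
          intro S _
          rw [← Finset.mul_sum, hΩ,
            ← Finset.prod_univ_sum (fun x : X => range (J x + 1))
              (fun x j => lv (q x) (J x) j * if x ∈ S then vv j else 1)]
          congr 1
          have h1 : ∀ x, ∑ j ∈ range (J x + 1),
              (lv (q x) (J x) j * if x ∈ S then vv j else 1)
              = if x ∈ S then
                  (∑ j ∈ range (J x + 1), lv (q x) (J x) j * vv j) else 1 := by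
            intro x
            split_ifs
            · rfl
            · simp [sum_lv]
          rw [Finset.prod_congr rfl (fun x _ => h1 x), Finset.prod_ite_mem]
          simp only [univ_inter]
  rw [hE2] at hE1
  have hE3 : ∑ S : Finset X, g S * ∏ x ∈ S, (∑ j ∈ range (J x + 1), lv (q x) (J x) j * vv j)
      ≤ ∑ S : Finset X, g S * ∏ x ∈ S, (97 * q x) := by
    apply Finset.sum_le_sum
    intro S _
    apply mul_le_mul_of_nonneg_left _ (hg S)
    apply Finset.prod_le_prod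
    · intro x _
      exact Finset.sum_nonneg (fun j _ => mul_nonneg (hlv x j) (vv_pos j).le)
    · intro x _
      exact exp_bound (q x) (hq x) (J x) (hJ2 x)
  have hE4 : 1 - ∑ S : Finset X, g S * ∏ x ∈ S, (97 * q x) ≤ PB := by
    linarith only [hE1, hE3]
  have hE5 := mul_le_mul_of_nonneg_left hE4 hc
  linarith only [hE5, hbad]

end Vale.Agent.N034
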