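import Vale.Agent.N034.Ord
import Vale.Agent.P034.H953.Levels

/-!
The weighted count of the sets that can be left over by the level process.
-/

set_option linter.all false

namespace Vale.Agent.N034

open Finset Vale.Agent.P034

variable {X : Type*} [Fintype X] [DecidableEq X]

/-- The sizes of the levels. -/
noncomputable def aa : ℕ → ℝ
  | 0 => 20
  | j + 1 => 290 * 80 ^ j

theorem aa_pos (j : ℕ) : 0 < aa j := by
  cases j with
  | zero => simp only [aa]; norm_num
  | succ j => simp only [aa]; positivity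

noncomputable def ww (j : ℕ) : ℝ := 1 / aa j

theorem ww_pos (j : ℕ) : 0 < ww j := by
  unfold ww
  have := aa_pos j
  positivity

/-- The number of points allowed on level `j` when `n` points are on the levels `≤ j`. -/
def MM (j n : ℕ) : ℕ := if n = 0 then 0 else mm j (n - 1)

theorem prod_ww (J : ℕ) (ψ : X → ℕ) (T : Finset X) (hT : ∀ x ∈ T, ψ x < J) :
    ∏ x ∈ T, ww (ψ x) = ∏ j ∈ range J, ww j ^ prof ψ T j := by
  rw [← Finset.prod_fiberwise_of_maps_to (g := ψ) (t := range J)]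
  · apply Finset.prod_congr rfl
    intro j _
    unfold prof
    rw [← Finset.prod_const]
    apply Finset.prod_congr rfl
    intro x hx
    simp only [mem_filter] at hx
    rw [hx.2]
  · intro x hx
    simpa using hT x hx

theorem multi_eq (s : Finset ℕ) (y : ℕ → ℝ) (n : ℕ) :
    ∑ t ∈ piAntidiag s n, ∏ j ∈ s, y j ^ t j / (Nat.factorial (t j) : ℝ)
      = (∑ j ∈ s, y j) ^ n / (Nat.factorial n : ℝ) := by
  have h1 : ∀ t ∈ piAntidiag s n,
      ∏ j ∈ s, y j ^ t j / (Nat.factorial (t j) : ℝ)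
        = (1 / (Nat.factorial n : ℝ)) * ((Nat.multinomial s t : ℝ) * ∏ j ∈ s, y j ^ t j) := by
    intro t ht
    rw [mem_piAntidiag] at ht
    have hspec := Nat.multinomial_spec s t
    rw [ht.1] at hspec
    have hspec' : (∏ j ∈ s, (Nat.factorial (t j) : ℝ)) * (Nat.multinomial s t : ℝ)
        = (Nat.factorial n : ℝ) := by
      rw [← hspec]; push_cast; ring
    rw [Finset.prod_div_distrib, ← hspec']
    have hp : (∏ j ∈ s, (Nat.factorial (t j) : ℝ)) ≠ 0 := by
      apply Finset.prod_ne_zero_iff.mpr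
      intro j _
      exact_mod_cast Nat.factorial_ne_zero _
    have hm : (Nat.multinomial s t : ℝ) ≠ 0 := by
      intro h0
      rw [h0, mul_zero] at hspec'
      exact (Nat.factorial_ne_zero n) (by exact_mod_cast hspec'.symm)
    rw [div_eq_iff hp, one_div, mul_inv]
    set P := ∏ j ∈ s, y j ^ t j
    set A := ∏ j ∈ s, (Nat.factorial (t j) : ℝ)
    field_simp
  rw [Finset.sum_congr rfl h1, ← Finset.mul_sum, ← Finset.sum_pow_eq_sum_piAntidiag]
  ring

theorem multi_cons (s : Finset ℕ) (h0 : 0 ∉ s) (u y : ℕ → ℝ) (n : ℕ) :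
    ∑ t ∈ piAntidiag (cons 0 s h0) n, u (t 0) * ∏ j ∈ s, y j ^ t j / (Nat.factorial (t j) : ℝ)
      = ∑ p ∈ antidiagonal n, u p.1 * ((∑ j ∈ s, y j) ^ p.2 / (Nat.factorial p.2 : ℝ)) := by
  rw [piAntidiag_cons h0, Finset.sum_disjiUnion]
  apply Finset.sum_congr rfl
  intro p _
  rw [Finset.sum_map, ← multi_eq, Finset.mul_sum]
  apply Finset.sum_congr rfl
  intro t ht
  rw [mem_piAntidiag] at ht
  have ht0 : t 0 = 0 := by
    by_contra hne
    exact h0 (ht.2 0 hne)
  have e0 : (addRightEmbedding (fun t : ℕ => if t = 0 then p.1 else 0) t) 0 = p.1 := by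
    simp [ht0]
  rw [e0]
  congr 1
  apply Finset.prod_congr rfl
  intro j hj
  have hj0 : j ≠ 0 := fun h => h0 (h ▸ hj)
  have e1 : (addRightEmbedding (fun t : ℕ => if t = 0 then p.1 else 0) t) j = t j := by
    simp [hj0]
  rw [e1]

/-- The bound for the sets of size `n`. -/
noncomputable def UU (n : ℕ) : ℝ :=
  ∑ p ∈ antidiagonal n, ((MM 0 p.1).choose p.1 : ℝ) * (1 / 20) ^ p.1 *
    ((2 / 29 * (n : ℝ) - 1 / 290) ^ p.2 / (Nat.factorial p.2 : ℝ))

theorem sum_y_le (J n : ℕ) (hn : 0 < n) :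
    ∑ j ∈ Ico 1 (J + 1), ww j * (18 * 8 ^ (j - 1) * (n : ℝ) - 1) ≤ 2 / 29 * (n : ℝ) - 1 / 290 := by
  have hn1 : (1 : ℝ) ≤ n := by exact_mod_cast hn
  rw [Finset.sum_Ico_eq_sum_range, Nat.add_sub_cancel]
  have h1 : ∀ j, ww (1 + j) * (18 * 8 ^ (1 + j - 1) * (n : ℝ) - 1)
      = 18 / 290 * n * (1 / 10) ^ j - ww (j + 1) := by
    intro j
    rw [Nat.add_sub_cancel_left, Nat.add_comm 1 j]
    unfold ww
    simp only [aa]
    have : (80 : ℝ) ^ j = 8 ^ j * 10 ^ j := by rw [← mul_pow]; norm_num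
    rw [this, one_div_pow]
    field_simp
  rw [Finset.sum_congr rfl (fun j _ => h1 j), Finset.sum_sub_distrib, ← Finset.mul_sum]
  cases J with
  | zero => simp; linarith only [hn1]
  | succ J =>
    have h2 := geom_le (1 / 10) (by norm_num) (by norm_num) (J + 1)
    have h3 : (1 : ℝ) / 290 ≤ ∑ j ∈ range (J + 1), ww (j + 1) := by
      have h4 := Finset.single_le_sum (f := fun j => ww (j + 1)) (s := range (J + 1))
        (fun j _ => (ww_pos _).le) (show 0 ∈ range (J + 1) by simp)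
      have h5 : ww (0 + 1) = 1 / 290 := by
        unfold ww; simp only [aa]; norm_num
      linarith only [h4, h5]
    have h6 : (0 : ℝ) ≤ 18 / 290 * n := by positivity
    have h7 := mul_le_mul_of_nonneg_left h2 h6
    linarith only [h3, h7]

theorem y_nonneg (j n : ℕ) (hn : 0 < n) : (0 : ℝ) ≤ 18 * 8 ^ j * (n : ℝ) - 1 := by
  have hn1 : (1 : ℝ) ≤ n := by exact_mod_cast hn
  have h8 : (1 : ℝ) ≤ 8 ^ j := one_le_pow₀ (by norm_num)
  nlinarith only [hn1, h8]

theorem MM_le (j n' n : ℕ) (hj : 1 ≤ j) (hn : 0 < n) (h : n' ≤ n) :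
    (MM j n' : ℝ) ≤ 18 * 8 ^ (j - 1) * (n : ℝ) - 1 := by
  obtain ⟨j, rfl⟩ : ∃ i, j = i + 1 := ⟨j - 1, by omega⟩
  rw [Nat.add_sub_cancel]
  unfold MM
  split_ifs with h0
  · simpa using y_nonneg j n hn
  · simp only [mm]
    have h1 : n' - 1 + 1 = n' := by omega
    rw [h1]
    have h2 : 0 < 18 * 8 ^ j * n' := by
      have : 0 < n' := by omega
      positivity
    rw [Nat.cast_sub h2]
    push_cast
    have h3 : (n' : ℝ) ≤ n := by exact_mod_cast h
    have h4 : (0 : ℝ) ≤ 18 * 8 ^ j := by positivity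
    have := mul_le_mul_of_nonneg_left h3 h4
    linarith only [this]

theorem multi_bound (J n : ℕ) (hn : 0 < n) :
    ∑ t ∈ piAntidiag (range (J + 1)) n, ∏ j ∈ range (J + 1),
      (((MM j (∑ i ∈ range (j + 1), t i)).choose (t j) : ℝ) * ww j ^ t j) ≤ UU n := by
  have h0 : 0 ∉ Ico 1 (J + 1) := by simp
  have hr : range (J + 1) = cons 0 (Ico 1 (J + 1)) h0 := by
    ext i
    simp only [mem_range, mem_cons, mem_Ico]
    omega
  set y : ℕ → ℝ := fun j => ww j * (18 * 8 ^ (j - 1) * (n : ℝ) - 1) with hy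
  have hy0 : ∀ j, 0 ≤ y j := fun j => mul_nonneg (ww_pos j).le (y_nonneg _ n hn)
  set u : ℕ → ℝ := fun s => ((MM 0 s).choose s : ℝ) * (1 / 20) ^ s with hu
  have hu0 : ∀ s, 0 ≤ u s := fun s => by rw [hu]; positivity
  have h1 : ∀ t ∈ piAntidiag (range (J + 1)) n, ∏ j ∈ range (J + 1),
      (((MM j (∑ i ∈ range (j + 1), t i)).choose (t j) : ℝ) * ww j ^ t j)
      ≤ u (t 0) * ∏ j ∈ Ico 1 (J + 1), y j ^ t j / (Nat.factorial (t j) : ℝ) := by
    intro t ht
    rw [mem_piAntidiag] at ht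
    rw [hr, Finset.prod_cons]
    have e0 : ((MM 0 (∑ i ∈ range (0 + 1), t i)).choose (t 0) : ℝ) * ww 0 ^ t 0 = u (t 0) := by
      rw [hu]
      simp only [zero_add, range_one, sum_singleton]
      unfold ww
      simp only [aa]
    rw [e0]
    apply mul_le_mul_of_nonneg_left _ (hu0 _)
    apply Finset.prod_le_prod
    · intro j _
      have := ww_pos j
      positivity
    · intro j hj
      rw [mem_Ico] at hj
      have h4 : ∑ i ∈ range (j + 1), t i ≤ n := by
        rw [← ht.1]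
        apply Finset.sum_le_sum_of_subset
        intro i hi
        rw [mem_range] at hi ⊢
        omega
      have h5 := MM_le j _ n hj.1 hn h4
      have h6 := Nat.choose_le_pow_div (α := ℝ) (t j) (MM j (∑ i ∈ range (j + 1), t i))
      have h7 : ((MM j (∑ i ∈ range (j + 1), t i) : ℝ)) ^ t j
          ≤ (18 * 8 ^ (j - 1) * (n : ℝ) - 1) ^ t j := pow_le_pow_left₀ (by positivity) h5 _
      have h8 : ((MM j (∑ i ∈ range (j + 1), t i)).choose (t j) : ℝ)
          ≤ (18 * 8 ^ (j - 1) * (n : ℝ) - 1) ^ t j / (Nat.factorial (t j) : ℝ) :=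
        h6.trans (div_le_div_of_nonneg_right (by exact_mod_cast h7) (by positivity))
      have h9 : 0 ≤ ww j ^ t j := by have := ww_pos j; positivity
      refine (mul_le_mul_of_nonneg_right h8 h9).trans (le_of_eq ?_)
      rw [hy]
      simp only
      rw [mul_pow]
      ring
  refine (Finset.sum_le_sum h1).trans ?_
  rw [hr, multi_cons]
  unfold UU
  apply Finset.sum_le_sum
  intro p _
  apply mul_le_mul_of_nonneg_left _ (hu0 _)
  apply div_le_div_of_nonneg_right _ (by positivity)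
  exact pow_le_pow_left₀ (Finset.sum_nonneg (fun j _ => hy0 j)) (sum_y_le J n hn) _

theorem UU_nonneg (n : ℕ) (hn : 0 < n) : 0 ≤ UU n := by
  unfold UU
  apply Finset.sum_nonneg
  intro p _
  have hn1 : (1 : ℝ) ≤ n := by exact_mod_cast hn
  have : (0 : ℝ) ≤ 2 / 29 * (n : ℝ) - 1 / 290 := by linarith only [hn1]
  positivity

theorem binom_eq (a b : ℝ) (n : ℕ) :
    ∑ p ∈ antidiagonal n, a ^ p.1 / (Nat.factorial p.1 : ℝ) * (b ^ p.2 / (Nat.factorial p.2 : ℝ))
      = (a + b) ^ n / (Nat.factorial n : ℝ) := by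
  rw [(Commute.all a b).add_pow', Finset.sum_div]
  apply Finset.sum_congr rfl
  intro p hp
  rw [mem_antidiagonal] at hp
  have h := Nat.add_choose_mul_factorial_mul_factorial p.1 p.2
  rw [hp] at h
  have h1 : n.choose p.2 = n.choose p.1 := by
    rw [← hp]; exact (Nat.choose_symm_add).symm
  rw [h1] at h
  have h2 : (n.choose p.1 : ℝ) * (Nat.factorial p.1 : ℝ) * (Nat.factorial p.2 : ℝ)
      = (Nat.factorial n : ℝ) := by exact_mod_cast h
  have h3 : (0 : ℝ) < (Nat.factorial p.1 : ℝ) := by exact_mod_cast Nat.factorial_pos _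
  have h4 : (0 : ℝ) < (Nat.factorial p.2 : ℝ) := by exact_mod_cast Nat.factorial_pos _
  have h5 : (0 : ℝ) < (n.choose p.1 : ℝ) := by
    exact_mod_cast Nat.choose_pos (by omega)
  rw [← h2, nsmul_eq_mul]
  field_simp

theorem UU_le (n : ℕ) (hn : 0 < n) : UU n ≤ 3 / 10 * (4 / 5) ^ (n - 1) := by
  have hn1 : (1 : ℝ) ≤ n := by exact_mod_cast hn
  have h1 : UU n ≤ ∑ p ∈ antidiagonal n, (9 / 40 * (n : ℝ)) ^ p.1 / (Nat.factorial p.1 : ℝ) *
      ((2 / 29 * (n : ℝ)) ^ p.2 / (Nat.factorial p.2 : ℝ)) := by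
    unfold UU
    apply Finset.sum_le_sum
    intro p hp
    rw [mem_antidiagonal] at hp
    have h2 : (0 : ℝ) ≤ 2 / 29 * (n : ℝ) - 1 / 290 := by linarith only [hn1]
    apply mul_le_mul _ _ (by positivity) (by positivity)
    · have h3 : 2 * MM 0 p.1 ≤ 9 * n := by
        unfold MM
        split_ifs
        · omega
        · simp only [mm]; omega
      have h4 : (MM 0 p.1 : ℝ) ≤ 9 / 2 * n := by
        have : (2 : ℝ) * (MM 0 p.1 : ℝ) ≤ 9 * n := by exact_mod_cast h3
        linarith only [this]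
      have h5 := Nat.choose_le_pow_div (α := ℝ) p.1 (MM 0 p.1)
      have h6 : ((MM 0 p.1 : ℝ)) ^ p.1 ≤ (9 / 2 * (n : ℝ)) ^ p.1 :=
        pow_le_pow_left₀ (by positivity) h4 _
      have h7 : ((MM 0 p.1).choose p.1 : ℝ) ≤ (9 / 2 * (n : ℝ)) ^ p.1 / (Nat.factorial p.1 : ℝ) :=
        h5.trans (div_le_div_of_nonneg_right (by exact_mod_cast h6) (by positivity))
      refine (mul_le_mul_of_nonneg_right h7 (by positivity)).trans (le_of_eq ?_)
      rw [show (9 / 40 * (n : ℝ)) = 9 / 2 * n * (1 / 20) by ring, mul_pow (9 / 2 * (n : ℝ))]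
      ring
    · apply div_le_div_of_nonneg_right _ (by positivity)
      exact pow_le_pow_left₀ h2 (by linarith only []) _
  rw [binom_eq] at h1
  have h2 := H953.pow_div_factorial_le n hn
  have h3 : Real.exp 1 ≤ 272 / 100 := by
    have := Real.exp_one_lt_d9
    linarith only [this]
  obtain ⟨m, rfl⟩ : ∃ m, n = m + 1 := ⟨n - 1, by omega⟩
  rw [Nat.add_sub_cancel] at h2 ⊢
  have h4 : (9 / 40 * ((m + 1 : ℕ) : ℝ) + 2 / 29 * ((m + 1 : ℕ) : ℝ)) ^ (m + 1)
      / (Nat.factorial (m + 1) : ℝ)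
      = (341 / 1160) ^ (m + 1) * (((m + 1 : ℕ) : ℝ) ^ (m + 1) / (Nat.factorial (m + 1) : ℝ)) := by
    rw [← mul_div_assoc, ← mul_pow]
    congr 2
    ring
  rw [h4] at h1
  have h5 : (341 / 1160 : ℝ) ^ (m + 1) * (((m + 1 : ℕ) : ℝ) ^ (m + 1) / (Nat.factorial (m + 1) : ℝ))
      ≤ (341 / 1160) ^ (m + 1) * Real.exp 1 ^ m := mul_le_mul_of_nonneg_left h2 (by positivity)
  have h6 : (341 / 1160 : ℝ) ^ (m + 1) * Real.exp 1 ^ m ≤ 3 / 10 * (4 / 5) ^ m := by
    rw [pow_succ', mul_assoc, ← mul_pow]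
    have he := Real.exp_pos 1
    apply mul_le_mul (by norm_num) _ (by positivity) (by norm_num)
    apply pow_le_pow_left₀ (by positivity)
    linarith only [h3]
  exact h1.trans (h5.trans h6)

/-- The rational number `UU n`. -/
def UQ (n : ℕ) : ℚ :=
  ∑ s ∈ range (n + 1), (((MM 0 s).descFactorial s / Nat.factorial s : ℕ) : ℚ) * (1 / 20) ^ s *
    ((2 / 29 * (n : ℚ) - 1 / 290) ^ (n - s) / (Nat.factorial (n - s) : ℚ))

theorem UQ_cast (n : ℕ) : (UQ n : ℝ) = UU n := by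
  unfold UQ UU
  rw [Finset.Nat.sum_antidiagonal_eq_sum_range_succ_mk]
  push_cast
  apply Finset.sum_congr rfl
  intro s _
  rw [Nat.choose_eq_descFactorial_div_factorial]

theorem UQ_sum : ∑ n ∈ range 35, UQ (n + 1) ≤ 2485 / 10000 := by
  decide +kernel

theorem UU_sum (M : ℕ) : ∑ n ∈ Icc 1 M, UU n ≤ 1 / 4 := by
  have h1 : ∑ n ∈ range 35, UU (n + 1) ≤ 2485 / 10000 := by
    have h := (Rat.cast_le (K := ℝ)).mpr UQ_sum
    push_cast at h
    simpa only [UQ_cast] using h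
  have h2 : ∑ n ∈ Icc 1 M, UU n ≤ ∑ n ∈ range (35 + M), UU (n + 1) := by
    rw [← Finset.Ico_add_one_right_eq_Icc, Finset.sum_Ico_eq_sum_range, Nat.add_sub_cancel]
    simp only [Nat.add_comm 1]
    apply Finset.sum_le_sum_of_subset_of_nonneg (Finset.range_mono (by omega))
    intro n _ _
    exact UU_nonneg _ (by omega)
  rw [Finset.sum_range_add] at h2
  have h3 : ∑ i ∈ range M, UU (35 + i + 1) ≤ ∑ i ∈ range M, 3 / 10 * (4 / 5) ^ 35 * (4 / 5 : ℝ) ^ i := by
    apply Finset.sum_le_sum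
    intro i _
    have := UU_le (35 + i + 1) (by omega)
    rw [Nat.add_sub_cancel, pow_add, ← mul_assoc] at this
    exact this
  rw [← Finset.mul_sum] at h3
  have h4 := geom_le (4 / 5) (by norm_num) (by norm_num) M
  have h5 := mul_le_mul_of_nonneg_left h4 (show (0 : ℝ) ≤ 3 / 10 * (4 / 5) ^ 35 by positivity)
  have h6 : (3 / 10 * (4 / 5) ^ 35 : ℝ) * (1 / (1 - 4 / 5)) ≤ 15 / 10000 := by norm_num
  linarith only [h1, h2, h3, h5, h6]

theorem count_bound (J : ℕ) (ψ : X → ℕ) (N : (ℕ → ℕ) → Finset X)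
    (hN : ∀ t : ℕ → ℕ, ∀ j,
      ((N t).filter (fun x => ψ x = j)).card ≤ MM j (∑ i ∈ range (j + 1), t i)) :
    ∑ T ∈ univ.filter (fun T : Finset X => T.Nonempty ∧ (∀ x ∈ T, ψ x < J + 1) ∧
      T ⊆ N (prof ψ T)), ∏ x ∈ T, ww (ψ x) ≤ 1 / 4 := by
  classical
  set V := univ.filter (fun T : Finset X => T.Nonempty ∧ (∀ x ∈ T, ψ x < J + 1) ∧
      T ⊆ N (prof ψ T)) with hV
  refine le_trans ?_ (UU_sum (Fintype.card X))
  rw [← Finset.sum_fiberwise_of_maps_to (g := fun T : Finset X => T.card)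
    (t := Icc 1 (Fintype.card X))]
  swap
  · intro T hT
    rw [hV, mem_filter] at hT
    rw [mem_Icc]
    exact ⟨Finset.card_pos.mpr hT.2.1, Finset.card_le_univ T⟩
  apply Finset.sum_le_sum
  intro n hn
  rw [mem_Icc] at hn
  refine le_trans ?_ (multi_bound J n (by omega))
  rw [← Finset.sum_fiberwise_of_maps_to (g := fun T : Finset X => prof ψ T)
    (t := piAntidiag (range (J + 1)) n)]
  swap
  · intro T hT
    rw [mem_filter, hV, mem_filter] at hT
    rw [mem_piAntidiag]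
    obtain ⟨⟨_, _, h2, _⟩, h3⟩ := hT
    refine ⟨?_, ?_⟩
    · rw [sum_prof (J + 1) ψ T h2]; exact h3
    · intro i hi
      unfold prof at hi
      obtain ⟨x, hx⟩ := Finset.card_pos.mp (Nat.pos_of_ne_zero hi)
      rw [mem_filter] at hx
      rw [mem_range, ← hx.2]
      exact h2 x hx.1
  apply Finset.sum_le_sum
  intro t ht
  set W := (V.filter (fun T => T.card = n)).filter (fun T => prof ψ T = t) with hW
  have hWmem : ∀ T ∈ W, T ⊆ N t ∧ (∀ x ∈ T, ψ x < J + 1) ∧ prof ψ T = t := by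
    intro T hT
    rw [hW, mem_filter, mem_filter, hV, mem_filter] at hT
    obtain ⟨⟨⟨_, _, h2, h3⟩, _⟩, h5⟩ := hT
    rw [h5] at h3
    exact ⟨h3, h2, h5⟩
  have h1 : ∀ T ∈ W, ∏ x ∈ T, ww (ψ x) = ∏ j ∈ range (J + 1), ww j ^ t j := by
    intro T hT
    obtain ⟨_, h2, h3⟩ := hWmem T hT
    rw [prod_ww (J + 1) ψ T h2, h3]
  rw [Finset.sum_congr rfl h1, Finset.sum_const, nsmul_eq_mul]
  have hcard := card_prof_le (J + 1) ψ (N t) t W hWmem
  have hcard' : (W.card : ℝ) ≤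
      ∏ j ∈ range (J + 1), ((MM j (∑ i ∈ range (j + 1), t i)).choose (t j) : ℝ) := by
    have h2 : W.card ≤ ∏ j ∈ range (J + 1), (MM j (∑ i ∈ range (j + 1), t i)).choose (t j) :=
      hcard.trans (Finset.prod_le_prod' (fun j _ => Nat.choose_le_choose _ (hN t j)))
    exact_mod_cast h2
  rw [Finset.prod_mul_distrib]
  apply mul_le_mul_of_nonneg_right hcard'
  apply Finset.prod_nonneg
  intro j _
  have := ww_pos j
  positivity

end Vale.Agent.N034
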