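import Vale.Agent.P034.Defs
import Vale.Agent.P034.Bdl.B1

/-!
The family of all sets with at least three elements: `q_f / q > 8 / 7` on at least 1000 points.
-/

set_option linter.all false

namespace Vale.Agent.N034

open Finset Vale.Agent.P034

variable {X : Type*} [Fintype X] [DecidableEq X]

theorem fiber2 (S : Finset X) (hS : S.card = 2) (T : Finset (X × X))
    (hT : ∀ t ∈ T, t.1 ≠ t.2 ∧ ({t.1, t.2} : Finset X) = S) : T.card ≤ 2 := by
  obtain ⟨a, b, hab, rfl⟩ := card_eq_two.mp hS
  refine le_trans (Finset.card_le_card (t := {(a, b), (b, a)}) ?_) card_le_two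
  rintro ⟨x, y⟩ ht
  obtain ⟨h1, h2⟩ := hT _ ht
  have hx : x ∈ ({a, b} : Finset X) := by rw [← h2]; simp
  have hy : y ∈ ({a, b} : Finset X) := by rw [← h2]; simp
  simp only [mem_insert, mem_singleton] at hx hy
  rcases hx with rfl | rfl <;> rcases hy with rfl | rfl <;>
    first | exact absurd rfl h1 | simp

theorem fiber3 (S : Finset X) (hS : S.card = 3) (T : Finset (X × X × X))
    (hT : ∀ t ∈ T, t.1 ≠ t.2.1 ∧ t.1 ≠ t.2.2 ∧ t.2.1 ≠ t.2.2 ∧
      ({t.1, t.2.1, t.2.2} : Finset X) = S) : T.card ≤ 6 := by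
  obtain ⟨a, b, c, hab, hac, hbc, rfl⟩ := card_eq_three.mp hS
  refine le_trans (Finset.card_le_card
    (t := {(a, b, c), (a, c, b), (b, a, c), (b, c, a), (c, a, b), (c, b, a)}) ?_) card_le_six
  rintro ⟨x, y, z⟩ ht
  obtain ⟨h1, h2, h3, h4⟩ := hT _ ht
  have hx : x ∈ ({a, b, c} : Finset X) := by rw [← h4]; simp
  have hy : y ∈ ({a, b, c} : Finset X) := by rw [← h4]; simp
  have hz : z ∈ ({a, b, c} : Finset X) := by rw [← h4]; simp
  simp only [mem_insert, mem_singleton] at hx hy hz
  rcases hx with rfl | rfl | rfl <;> rcases hy with rfl | rfl | rfl <;>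
    rcases hz with rfl | rfl | rfl <;>
    first | exact absurd rfl h1 | exact absurd rfl h2 | exact absurd rfl h3 | simp

theorem not_mem_of_subset_pair (G : Finset (Finset X)) (h0 : ∅ ∉ G) (y z : X)
    (hy : {y} ∉ G) (hz : {z} ∉ G) (hyz : ({y, z} : Finset X) ∉ G) (S : Finset X)
    (hS : S ⊆ {y, z}) : S ∉ G := by
  intro hG
  by_cases h1 : y ∈ S
  · by_cases h2 : z ∈ S
    · apply hyz
      rwa [← Finset.Subset.antisymm hS (by
        intro w hw
        simp only [mem_insert, mem_singleton] at hw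
        rcases hw with rfl | rfl <;> assumption)]
    · have h3 : S = {y} := by
        ext w
        simp only [mem_singleton]
        constructor
        · intro hw
          have := hS hw
          simp only [mem_insert, mem_singleton] at this
          rcases this with rfl | rfl
          · rfl
          · exact absurd hw h2
        · rintro rfl; exact h1
      exact hy (h3 ▸ hG)
  · have h3 : S ⊆ {z} := by
      intro w hw
      have := hS hw
      simp only [mem_insert, mem_singleton] at this ⊢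
      rcases this with rfl | rfl
      · exact absurd hw h1
      · rfl
    rcases Finset.subset_singleton_iff.mp h3 with h4 | h4
    · exact h0 (h4 ▸ hG)
    · exact hz (h4 ▸ hG)

theorem triple_mem (G : Finset (Finset X)) (h0 : ∅ ∉ G) (x y z : X)
    (hx : {x} ∉ G) (hy : {y} ∉ G) (hz : {z} ∉ G)
    (hxy : ({x, y} : Finset X) ∉ G) (hxz : ({x, z} : Finset X) ∉ G)
    (hyz : ({y, z} : Finset X) ∉ G) (S : Finset X) (hG : S ∈ G) (hS : S ⊆ {x, y, z}) :
    ({x, y, z} : Finset X) ∈ G := by
  have h1 : x ∈ S := by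
    by_contra h
    refine not_mem_of_subset_pair G h0 y z hy hz hyz S ?_ hG
    intro w hw
    have := hS hw
    simp only [mem_insert, mem_singleton] at this ⊢
    rcases this with rfl | h' | h'
    · exact absurd hw h
    · exact Or.inl h'
    · exact Or.inr h'
  have h2 : y ∈ S := by
    by_contra h
    refine not_mem_of_subset_pair G h0 x z hx hz hxz S ?_ hG
    intro w hw
    have := hS hw
    simp only [mem_insert, mem_singleton] at this ⊢
    rcases this with h' | rfl | h'
    · exact Or.inl h'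
    · exact absurd hw h
    · exact Or.inr h'
  have h3 : z ∈ S := by
    by_contra h
    refine not_mem_of_subset_pair G h0 x y hx hy hxy S ?_ hG
    intro w hw
    have := hS hw
    simp only [mem_insert, mem_singleton] at this ⊢
    rcases this with h' | h' | rfl
    · exact Or.inl h'
    · exact Or.inr h'
    · exact absurd hw h
  rwa [← Finset.Subset.antisymm hS (by
    intro w hw
    simp only [mem_insert, mem_singleton] at hw
    rcases hw with rfl | rfl | rfl <;> assumption)]

/-- Goodman's inequality in the form needed. -/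
theorem goodman (B : Finset X) (U : X → X → ℝ) (hU : ∀ x y, U x y = 0 ∨ U x y = 1)
    (hsymm : ∀ x y, U x y = U y x) :
    ∑ x ∈ B, (2 * (∑ y ∈ B, U x y) ^ 2 - B.card * ∑ y ∈ B, U x y)
      ≤ ∑ x ∈ B, ∑ y ∈ B, ∑ z ∈ B, U x y * U x z * U y z := by
  have h1 : ∑ x ∈ B, ∑ y ∈ B, ∑ z ∈ B, (U x y * U x z + U y x * U y z - U x y)
      ≤ ∑ x ∈ B, ∑ y ∈ B, ∑ z ∈ B, U x y * U x z * U y z := by
    refine Finset.sum_le_sum (fun x _ => Finset.sum_le_sum (fun y _ =>
      Finset.sum_le_sum (fun z _ => ?_)))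
    rw [hsymm y x]
    rcases hU x y with h | h <;> rcases hU x z with h' | h' <;> rcases hU y z with h'' | h'' <;>
      rw [h, h', h''] <;> norm_num
  refine le_trans (le_of_eq ?_) h1
  have h2 : ∑ x ∈ B, ∑ y ∈ B, ∑ z ∈ B, U x y * U x z = ∑ x ∈ B, (∑ y ∈ B, U x y) ^ 2 := by
    apply Finset.sum_congr rfl
    intro x _
    rw [sq, Finset.sum_mul_sum]
  have h3 : ∑ x ∈ B, ∑ y ∈ B, ∑ z ∈ B, U y x * U y z = ∑ x ∈ B, (∑ y ∈ B, U x y) ^ 2 := by
    rw [Finset.sum_comm, h2]
  have h4 : ∑ x ∈ B, ∑ y ∈ B, ∑ _z ∈ B, U x y = ∑ x ∈ B, B.card * ∑ y ∈ B, U x y := by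
    apply Finset.sum_congr rfl
    intro x _
    rw [Finset.mul_sum]
    apply Finset.sum_congr rfl
    intro y _
    rw [Finset.sum_const, nsmul_eq_mul]
  simp only [Finset.sum_sub_distrib, Finset.sum_add_distrib]
  rw [h2, h3, h4, ← Finset.mul_sum]
  ring

theorem cost_gt (hn : 1000 ≤ Fintype.card X) (G : Finset (Finset X))
    (hG : ∀ H : Finset X, 3 ≤ H.card → ∃ S ∈ G, S ⊆ H) (p : ℝ)
    (hp : p * Fintype.card X = 303 / 200) : 1 / 2 < ∑ S ∈ G, p ^ S.card := by
  have hn' : (1000 : ℝ) ≤ Fintype.card X := by exact_mod_cast hn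
  have hp0 : 0 < p := by
    by_contra h
    push Not at h
    nlinarith only [h, hp, hn']
  have hp1 : p ≤ 303 / 200000 := by nlinarith only [hp0, hp, hn']
  by_cases h0 : ∅ ∈ G
  · have := Finset.single_le_sum (f := fun S : Finset X => p ^ S.card)
      (fun S _ => by positivity) h0
    simp only [card_empty, pow_zero] at this
    linarith only [this]
  set B : Finset X := univ.filter (fun x => {x} ∉ G) with hB
  have hBmem : ∀ x, x ∈ B ↔ {x} ∉ G := by intro x; rw [hB]; simp
  set G1 := G.filter (fun S => S.card = 1) with hG1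
  set G2 := G.filter (fun S => S.card = 2) with hG2
  set G3 := G.filter (fun S => S.card = 3) with hG3
  have hcost : (G1.card : ℝ) * p + G2.card * p ^ 2 + G3.card * p ^ 3 ≤ ∑ S ∈ G, p ^ S.card := by
    rw [hG1, hG2, hG3]
    simp only [Finset.card_filter, Nat.cast_sum, Finset.sum_mul, ← Finset.sum_add_distrib]
    apply Finset.sum_le_sum
    intro S _
    by_cases h1 : S.card = 1
    · simp [h1]
    · by_cases h2 : S.card = 2
      · simp [h2]
      · by_cases h3 : S.card = 3
        · simp [h3]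
        · simp only [h1, h2, h3, if_false, Nat.cast_zero, zero_mul, add_zero]
          positivity
  have hA : (Fintype.card X : ℝ) ≤ G1.card + B.card := by
    have h1 : (univ.filter (fun x : X => {x} ∈ G)).card ≤ G1.card := by
      apply Finset.card_le_card_of_injOn (fun x => ({x} : Finset X))
      · intro x hx
        simp only [Finset.mem_coe, mem_filter, hG1] at hx ⊢
        exact ⟨hx.2, card_singleton x⟩
      · intro x _ y _ h
        exact Finset.singleton_injective h
    have h2 := Finset.card_filter_add_card_filter_not (s := (univ : Finset X))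
      (fun x : X => {x} ∈ G)
    rw [Finset.card_univ] at h2
    have h3 : Fintype.card X ≤ G1.card + B.card := by rw [hB]; omega
    exact_mod_cast h3
  set U : X → X → ℝ := fun x y => if ({x, y} : Finset X) ∈ G then 0 else 1 with hU
  have hP2 : ∑ x ∈ B, ((B.card : ℝ) - ∑ y ∈ B, U x y) ≤ 2 * G2.card := by
    set P := (B ×ˢ B).filter (fun t => ({t.1, t.2} : Finset X) ∈ G) with hP
    have hPmem : ∀ t ∈ P, t.1 ≠ t.2 ∧ ({t.1, t.2} : Finset X) ∈ G := by
      intro t ht
      rw [hP, mem_filter, mem_product] at ht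
      refine ⟨fun h => ?_, ht.2⟩
      have h1 := ht.2
      rw [← h, Finset.pair_eq_singleton] at h1
      exact (hBmem _).mp ht.1.1 h1
    have h1 : P.card ≤ 2 * G2.card := by
      apply Finset.card_le_mul_card_image_of_maps_to (f := fun t => ({t.1, t.2} : Finset X))
      · intro t ht
        rw [hG2, mem_filter]
        exact ⟨(hPmem t ht).2, card_pair (hPmem t ht).1⟩
      · intro S hS
        apply fiber2 S (mem_filter.mp hS).2
        intro t ht
        rw [mem_filter] at ht
        exact ⟨(hPmem t ht.1).1, ht.2⟩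
    have h2 : (P.card : ℝ) = ∑ x ∈ B, ((B.card : ℝ) - ∑ y ∈ B, U x y) := by
      rw [hP, Finset.card_filter, Finset.sum_product]
      push_cast
      apply Finset.sum_congr rfl
      intro x _
      rw [Finset.card_eq_sum_ones B]
      push_cast
      rw [← Finset.sum_sub_distrib]
      apply Finset.sum_congr rfl
      intro y _
      rw [hU]
      simp only
      split_ifs <;> norm_num
    rw [← h2]
    exact_mod_cast h1
  have hP3 : ∑ x ∈ B, ∑ y ∈ B, ∑ z ∈ B, U x y * U x z * U y z
      ≤ 6 * G3.card + 3 * (B.card : ℝ) ^ 2 := by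
    set T := (B ×ˢ B ×ˢ B).filter (fun t => ({t.1, t.2.1} : Finset X) ∉ G ∧
      ({t.1, t.2.2} : Finset X) ∉ G ∧ ({t.2.1, t.2.2} : Finset X) ∉ G) with hT
    set T' := T.filter (fun t => t.1 ≠ t.2.1 ∧ t.1 ≠ t.2.2 ∧ t.2.1 ≠ t.2.2) with hT'
    have h1 : T'.card ≤ 6 * G3.card := by
      apply Finset.card_le_mul_card_image_of_maps_to
        (f := fun t => ({t.1, t.2.1, t.2.2} : Finset X))
      · intro t ht
        rw [hT', mem_filter, hT, mem_filter, mem_product, mem_product] at ht
        obtain ⟨⟨⟨b1, b2, b3⟩, n1, n2, n3⟩, d1, d2, d3⟩ := ht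
        have hc : ({t.1, t.2.1, t.2.2} : Finset X).card = 3 :=
          card_eq_three.mpr ⟨_, _, _, d1, d2, d3, rfl⟩
        obtain ⟨S, hS, hsub⟩ := hG _ hc.ge
        rw [hG3, mem_filter]
        exact ⟨triple_mem G h0 _ _ _ ((hBmem _).mp b1) ((hBmem _).mp b2) ((hBmem _).mp b3)
          n1 n2 n3 S hS hsub, hc⟩
      · intro S hS
        apply fiber3 S (mem_filter.mp hS).2
        intro t ht
        rw [mem_filter, hT', mem_filter] at ht
        exact ⟨ht.1.2.1, ht.1.2.2.1, ht.1.2.2.2, ht.2⟩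
    have h2 : T ⊆ T' ∪ (B ×ˢ B).image (fun s => (s.1, s.1, s.2))
        ∪ (B ×ˢ B).image (fun s => (s.1, s.2, s.1)) ∪ (B ×ˢ B).image (fun s => (s.1, s.2, s.2)) := by
      rintro ⟨x, y, z⟩ ht
      have ht' := ht
      rw [hT, mem_filter, mem_product, mem_product] at ht'
      obtain ⟨⟨b1, b2, b3⟩, _⟩ := ht'
      simp only [mem_union, mem_image]
      by_cases d1 : x = y
      · subst d1
        exact Or.inl (Or.inl (Or.inr ⟨(x, z), mem_product.mpr ⟨b1, b3⟩, rfl⟩))
      · by_cases d2 : x = z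
        · subst d2
          exact Or.inl (Or.inr ⟨(x, y), mem_product.mpr ⟨b1, b2⟩, rfl⟩)
        · by_cases d3 : y = z
          · subst d3
            exact Or.inr ⟨(x, y), mem_product.mpr ⟨b1, b2⟩, rfl⟩
          · exact Or.inl (Or.inl (Or.inl (mem_filter.mpr ⟨ht, d1, d2, d3⟩)))
    have h3 : T.card ≤ 6 * G3.card + 3 * B.card ^ 2 := by
      have e1 := Finset.card_le_card h2
      have e2 := Finset.card_union_le (T' ∪ (B ×ˢ B).image (fun s : X × X => (s.1, s.1, s.2))
        ∪ (B ×ˢ B).image (fun s : X × X => (s.1, s.2, s.1)))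
        ((B ×ˢ B).image (fun s : X × X => (s.1, s.2, s.2)))
      have e3 := Finset.card_union_le (T' ∪ (B ×ˢ B).image (fun s : X × X => (s.1, s.1, s.2)))
        ((B ×ˢ B).image (fun s : X × X => (s.1, s.2, s.1)))
      have e4 := Finset.card_union_le T' ((B ×ˢ B).image (fun s : X × X => (s.1, s.1, s.2)))
      have e5 := Finset.card_image_le (s := B ×ˢ B) (f := fun s : X × X => (s.1, s.1, s.2))
      have e6 := Finset.card_image_le (s := B ×ˢ B) (f := fun s : X × X => (s.1, s.2, s.1))
      have e7 := Finset.card_image_le (s := B ×ˢ B) (f := fun s : X × X => (s.1, s.2, s.2))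
      rw [Finset.card_product, ← sq] at e5 e6 e7
      omega
    have h4 : (T.card : ℝ) = ∑ x ∈ B, ∑ y ∈ B, ∑ z ∈ B, U x y * U x z * U y z := by
      rw [hT, Finset.card_filter, Finset.sum_product]
      push_cast
      apply Finset.sum_congr rfl
      intro x _
      rw [Finset.sum_product]
      apply Finset.sum_congr rfl
      intro y _
      apply Finset.sum_congr rfl
      intro z _
      rw [hU]
      simp only
      by_cases c1 : ({x, y} : Finset X) ∈ G <;> by_cases c2 : ({x, z} : Finset X) ∈ G <;>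
        by_cases c3 : ({y, z} : Finset X) ∈ G <;> simp [c1, c2, c3]
    rw [← h4]
    exact_mod_cast h3
  have hgood := goodman B U (fun x y => by rw [hU]; simp only; split_ifs <;> simp)
    (fun x y => by rw [hU]; simp only; rw [Finset.pair_comm])
  set b : ℝ := (B.card : ℝ) with hb
  have hb0 : 0 ≤ b := by positivity
  have hbn : b ≤ Fintype.card X := by rw [hb]; exact_mod_cast Finset.card_le_univ B
  have hpt : ∀ x ∈ B, b * p ^ 2 / 2 - 3 / 4 * p * (1 / 2 + b * p / 6) ^ 2 ≤
      (b - ∑ y ∈ B, U x y) * (p ^ 2 / 2)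
        + (2 * (∑ y ∈ B, U x y) ^ 2 - b * ∑ y ∈ B, U x y) * (p ^ 3 / 6) := by
    intro x _
    set d := ∑ y ∈ B, U x y
    have h1 : 0 ≤ p * (d * p - 3 / 2 * (1 / 2 + b * p / 6)) ^ 2 := by positivity
    nlinarith only [h1]
  have h1 := Finset.sum_le_sum hpt
  rw [Finset.sum_const, nsmul_eq_mul, ← hb, Finset.sum_add_distrib, ← Finset.sum_mul,
    ← Finset.sum_mul] at h1
  have h2 := mul_le_mul_of_nonneg_right hP2 (show 0 ≤ p ^ 2 / 2 by positivity)
  have h3 := mul_le_mul_of_nonneg_right (hgood.trans hP3) (show 0 ≤ p ^ 3 / 6 by positivity)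
  have h4 := mul_le_mul_of_nonneg_right hA hp0.le
  set β := b * p with hβ
  have hβ0 : 0 ≤ β := by positivity
  have hβ1 : 0 ≤ 303 / 200 - β := by
    have := mul_le_mul_of_nonneg_right hbn hp0.le
    linarith only [this, hp]
  have h5 : b * (b * p ^ 2 / 2 - 3 / 4 * p * (1 / 2 + β / 6) ^ 2)
      = β ^ 2 / 2 - 3 / 4 * β * (1 / 2 + β / 6) ^ 2 := by rw [hβ]; ring
  have h6 : 3 * b ^ 2 * (p ^ 3 / 6) = β ^ 2 * p / 2 := by rw [hβ]; ring
  have h7 : β ^ 2 * p ≤ β ^ 2 * (303 / 200000) := mul_le_mul_of_nonneg_left hp1 (by positivity)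
  have h8 : 1 / 2 < 303 / 200 - β + (β ^ 2 / 2 - 3 / 4 * β * (1 / 2 + β / 6) ^ 2)
      - β ^ 2 * (303 / 200000) / 2 := by
    nlinarith only [hβ1, mul_nonneg hβ1 hβ1, mul_nonneg (mul_nonneg hβ1 hβ1) hβ1]
  rw [h5] at h1
  nlinarith only [hcost, h1, h2, h3, h4, h6, h7, h8, hp, hβ]

theorem small_le (hn : 1000 ≤ Fintype.card X) (p : ℝ)
    (hp : p ∈ smallParams {H : Finset X | 3 ≤ H.card}) : p * Fintype.card X ≤ 303 / 200 := by
  obtain ⟨_, _, G, hG, hcost⟩ := hp
  have hn' : (1000 : ℝ) ≤ Fintype.card X := by exact_mod_cast hn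
  have hpos : (0 : ℝ) < Fintype.card X := by linarith only [hn']
  by_contra hcon
  push Not at hcon
  have h1 := cost_gt hn G hG (303 / 200 / Fintype.card X) (by field_simp)
  have h2 : ∑ S ∈ G, (303 / 200 / (Fintype.card X : ℝ)) ^ S.card ≤ ∑ S ∈ G, p ^ S.card := by
    apply Finset.sum_le_sum
    intro S _
    apply pow_le_pow_left₀ (by positivity)
    rw [div_le_iff₀ hpos]
    exact hcon.le
  unfold coverCost at hcost
  linarith only [h1, h2, hcost]

theorem frac_mem (hn : 1000 ≤ Fintype.card X) :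
    (433 / 250 / (Fintype.card X : ℝ)) ∈ fracParams {H : Finset X | 3 ≤ H.card} := by
  have hn' : (1000 : ℝ) ≤ Fintype.card X := by exact_mod_cast hn
  have hpos : (0 : ℝ) < Fintype.card X := by linarith only [hn']
  refine ⟨by positivity, ?_, fun S => if S.card = 2 then 1 / 3 else 0, ⟨?_, ?_⟩, ?_⟩
  · rw [div_le_iff₀ hpos]; linarith only [hn']
  · intro S
    dsimp only
    split_ifs <;> norm_num
  · intro H hH
    have hH' : 3 ≤ H.card := hH
    rw [← Finset.sum_filter, Finset.sum_const, ← Finset.powersetCard_eq_filter,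
      Finset.card_powersetCard, nsmul_eq_mul]
    have h1 : 3 ≤ H.card.choose 2 := Nat.choose_le_choose 2 hH'
    have h2 : (3 : ℝ) ≤ H.card.choose 2 := by exact_mod_cast h1
    linarith only [h2]
  · unfold fracCost
    have h1 : ∀ S : Finset X, (if S.card = 2 then (1 / 3 : ℝ) else 0) *
        (433 / 250 / (Fintype.card X : ℝ)) ^ S.card
        = if S.card = 2 then 1 / 3 * (433 / 250 / (Fintype.card X : ℝ)) ^ 2 else 0 := by
      intro S
      split_ifs with h
      · rw [h]
      · rw [zero_mul]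
    rw [Finset.sum_congr rfl (fun S _ => h1 S), ← Finset.sum_filter, Finset.sum_const,
      ← Finset.powerset_univ, ← Finset.powersetCard_eq_filter, Finset.card_powersetCard,
      nsmul_eq_mul, Finset.card_univ]
    have h2 := Nat.choose_le_pow_div (α := ℝ) 2 (Fintype.card X)
    have h3 := mul_le_mul_of_nonneg_right h2
      (show (0 : ℝ) ≤ 1 / 3 * (433 / 250 / (Fintype.card X : ℝ)) ^ 2 by positivity)
    refine h3.trans ?_
    have h4 : ((Fintype.card X : ℝ) ^ 2 / (Nat.factorial 2 : ℝ)) *
        (1 / 3 * (433 / 250 / (Fintype.card X : ℝ)) ^ 2) = (433 / 250) ^ 2 / 6 := by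
      simp only [Nat.factorial]
      field_simp
      norm_num
    push_cast
    rw [h4]
    norm_num

theorem lower (hn : 1000 ≤ Fintype.card X) :
    8 * expThreshold {H : Finset X | 3 ≤ H.card}
      < 7 * fracExpThreshold {H : Finset X | 3 ≤ H.card} := by
  have h0 : (∅ : Finset X) ∉ {H : Finset X | 3 ≤ H.card} := by simp
  have hn' : (1000 : ℝ) ≤ Fintype.card X := by exact_mod_cast hn
  have hpos : (0 : ℝ) < Fintype.card X := by linarith only [hn']
  have h1 := small_le hn _ (isGreatest_small _ h0).1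
  have h2 := (isGreatest_frac _ h0).2 (frac_mem hn)
  rw [div_le_iff₀ hpos] at h2
  by_contra hcon
  push Not at hcon
  have h3 := mul_le_mul_of_nonneg_right hcon hpos.le
  nlinarith only [h1, h2, h3]

end Vale.Agent.N034
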