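import Vale.Agent.P034.Defs
import Vale.Agent.P034.Bdl.B1

/-!
Order statistics of a weight vector, and the potential used in the level argument.
-/

set_option linter.all false

namespace Vale.Agent.N034

open Finset Vale.Agent.P034

variable {X : Type*} [Fintype X] [DecidableEq X]

/-- The `(k+1)`-st largest value of the positive part of `l`. -/
noncomputable def ord (l : X → ℝ) (k : ℕ) : ℝ := topSum l (k + 1) - topSum l k

theorem ord_nonneg (l : X → ℝ) (k : ℕ) : 0 ≤ ord l k :=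
  sub_nonneg.mpr (topSum_mono l (Nat.le_succ k))

theorem card_gt_ord (l : X → ℝ) (k : ℕ) (N : Finset X) (hN : ∀ x ∈ N, ord l k < l x) :
    N.card ≤ k := by
  by_contra hcon
  push Not at hcon
  obtain ⟨Y, hY, he⟩ := exists_topSum l k
  obtain ⟨x, hxN, hxY⟩ := Finset.exists_mem_notMem_of_card_lt_card (hY.trans_lt hcon)
  have h1 : (insert x Y).card ≤ k + 1 := by
    rw [Finset.card_insert_of_notMem hxY]; omega
  have h2 := le_topSum l h1
  rw [Finset.sum_insert hxY, ← he] at h2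
  have h3 := hN x hxN
  unfold ord at h3
  linarith only [h2, h3]

theorem ord_succ_le (l : X → ℝ) (k : ℕ) : ord l (k + 1) ≤ ord l k := by
  unfold ord
  obtain ⟨Y2, hY2, he2⟩ := exists_topSum l (k + 1 + 1)
  obtain ⟨Y0, hY0, he0⟩ := exists_topSum l k
  rcases Nat.lt_or_ge (k + 1) Y2.card with h | h
  · obtain ⟨x, hx2, hx0⟩ := Finset.exists_mem_notMem_of_card_lt_card
      (show Y0.card < Y2.card by omega)
    have h1 : (insert x Y0).card ≤ k + 1 := by
      rw [Finset.card_insert_of_notMem hx0]; omega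
    have h2 : (Y2.erase x).card ≤ k + 1 := by
      rw [Finset.card_erase_of_mem hx2]; omega
    have h3 := le_topSum l h1
    have h4 := le_topSum l h2
    rw [Finset.sum_insert hx0, ← he0] at h3
    have h5 := Finset.add_sum_erase Y2 l hx2
    linarith only [h3, h4, h5, he2]
  · have h1 := le_topSum l h
    have h2 := topSum_mono l (Nat.le_succ k)
    simp only [Nat.succ_eq_add_one] at h2
    linarith only [h1, h2, he2]

theorem sum_ord_le (l : X → ℝ) (hl : ∀ x, 0 ≤ l x) (hs : ∑ x, l x ≤ 1) (M : ℕ) :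
    ∑ k ∈ range M, ord l k ≤ 1 := by
  unfold ord
  rw [Finset.sum_range_sub (fun k => topSum l k)]
  have h1 := topSum_nonneg l 0
  have h2 := topSum_le_sum l hl M
  linarith only [h1, h2, hs]

theorem abel_aux (o c : ℕ → ℝ) (θ : ℝ) (ho : ∀ k, o (k + 1) ≤ o k)
    (hc : ∀ M : ℕ, ∑ k ∈ range M, c k ≤ θ * M) (M : ℕ) :
    ∑ k ∈ range M, (c k - θ) * o k ≤ (∑ k ∈ range M, c k - θ * M) * o M := by
  induction M with
  | zero => simp
  | succ M ih =>
    rw [Finset.sum_range_succ]
    have h1 := hc (M + 1)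
    have h2 := mul_le_mul_of_nonpos_left (ho M) (sub_nonpos.mpr h1)
    refine le_trans ?_ h2
    rw [Finset.sum_range_succ]
    push_cast
    nlinarith only [ih]

theorem abel {ι : Type*} (I : Finset ι) (w : ι → ℝ) (m : ι → ℕ) (o : ℕ → ℝ) (θ : ℝ)
    (hθ : 0 ≤ θ) (ho0 : ∀ k, 0 ≤ o k) (ho : ∀ k, o (k + 1) ≤ o k)
    (hs : ∀ M, ∑ k ∈ range M, o k ≤ 1)
    (hc : ∀ M : ℕ, ∑ i ∈ I.filter (fun i => m i < M), w i ≤ θ * M) :
    ∑ i ∈ I, w i * o (m i) ≤ θ := by
  classical
  set c : ℕ → ℝ := fun k => ∑ i ∈ I.filter (fun i => m i = k), w i with hcdef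
  have hcsum : ∀ M : ℕ, ∑ k ∈ range M, c k = ∑ i ∈ I.filter (fun i => m i < M), w i := by
    intro M
    rw [← Finset.sum_fiberwise_of_maps_to (s := I.filter (fun i => m i < M)) (g := m)
      (t := range M) (fun i hi => by simpa using (mem_filter.mp hi).2)]
    apply Finset.sum_congr rfl
    intro k hk
    rw [mem_range] at hk
    apply Finset.sum_congr _ (fun _ _ => rfl)
    ext i
    simp only [mem_filter]
    constructor
    · rintro ⟨h1, h2⟩; exact ⟨⟨h1, by omega⟩, h2⟩
    · rintro ⟨⟨h1, _⟩, h2⟩; exact ⟨h1, h2⟩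
  set M := I.sup m + 1 with hM
  have h1 : ∑ i ∈ I, w i * o (m i) = ∑ k ∈ range M, c k * o k := by
    rw [← Finset.sum_fiberwise_of_maps_to (s := I) (g := m) (t := range M)
      (fun i hi => by
        have := Finset.le_sup (f := m) hi
        rw [mem_range]; omega)]
    apply Finset.sum_congr rfl
    intro k _
    rw [hcdef]
    simp only
    rw [Finset.sum_mul]
    apply Finset.sum_congr rfl
    intro i hi
    rw [(mem_filter.mp hi).2]
  have hc' : ∀ M : ℕ, ∑ k ∈ range M, c k ≤ θ * M := fun M => (hcsum M).le.trans (hc M)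
  have h2 := abel_aux o c θ ho hc' M
  have h3 : (∑ k ∈ range M, c k - θ * M) * o M ≤ 0 :=
    mul_nonpos_of_nonpos_of_nonneg (sub_nonpos.mpr (hc' M)) (ho0 M)
  have h4 : ∑ k ∈ range M, (c k - θ) * o k
      = ∑ k ∈ range M, c k * o k - θ * ∑ k ∈ range M, o k := by
    rw [Finset.mul_sum, ← Finset.sum_sub_distrib]
    apply Finset.sum_congr rfl
    intro k _
    ring
  have h5 := mul_le_mul_of_nonneg_left (hs M) hθ
  rw [h1]
  linarith only [h2, h3, h4, h5]

/-- The number of points allowed on level `j` when `i + 1` points are on the levels `≤ j`. -/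
def mm : ℕ → ℕ → ℕ
  | 0, i => 18 * (i / 4) + 3 * (i % 4) + 2
  | j + 1, i => 18 * 8 ^ j * (i + 1) - 1

/-- The steps between the values of the levels. -/
def dd : ℕ → ℕ
  | 0 => 12
  | _ + 1 => 21

/-- The values of the levels. -/
def ff : ℕ → ℕ
  | 0 => 0
  | j + 1 => 12 + 21 * j

theorem ff_succ (j : ℕ) : ff (j + 1) = ff j + dd j := by
  cases j with
  | zero => rfl
  | succ j => simp only [ff, dd]; ring

theorem geom_le (r : ℝ) (hr0 : 0 ≤ r) (hr : r < 1) (J : ℕ) :
    ∑ j ∈ range J, r ^ j ≤ 1 / (1 - r) := by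
  have h : (∑ j ∈ range J, r ^ j) * (1 - r) = 1 - r ^ J := by
    induction J with
    | zero => simp
    | succ k ih => rw [Finset.sum_range_succ, add_mul, ih, pow_succ]; ring
  rw [le_div_iff₀ (by linarith only [hr]), h]
  have : 0 ≤ r ^ J := by positivity
  linarith only [this]

theorem count_mm (J : ℕ) (n : ℕ → ℕ) (M : ℕ) :
    ∑ j ∈ range J, (dd j : ℝ) * (((range (n j)).filter (fun i => mm j i < M)).card : ℝ)
      ≤ 4 * M := by
  have h0 : ((range (n 0)).filter (fun i => mm 0 i < M)).card ≤ 4 * (M / 18) + (M % 18) / 3 := by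
    rw [← Finset.card_range (4 * (M / 18) + (M % 18) / 3)]
    apply Finset.card_le_card
    intro i hi
    rw [mem_filter] at hi
    have h := hi.2
    simp only [mm] at h
    rw [mem_range]
    omega
  have h1 : ∀ j, (((range (n (j + 1))).filter (fun i => mm (j + 1) i < M)).card : ℝ)
      ≤ ((M / 18 : ℕ) : ℝ) * (1 / 8) ^ j := by
    intro j
    have h2 : ((range (n (j + 1))).filter (fun i => mm (j + 1) i < M)).card ≤ M / 18 / 8 ^ j := by
      rw [← Finset.card_range (M / 18 / 8 ^ j)]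
      apply Finset.card_le_card
      intro i hi
      rw [mem_filter] at hi
      have h := hi.2
      simp only [mm] at h
      rw [mem_range, ← Nat.succ_le_iff, Nat.le_div_iff_mul_le (by positivity),
        Nat.le_div_iff_mul_le (by norm_num)]
      have h3 : 0 < 18 * 8 ^ j * (i + 1) := by positivity
      have h4 : i.succ * 8 ^ j * 18 = 18 * 8 ^ j * (i + 1) := by
        rw [Nat.succ_eq_add_one]; ring
      omega
    have h5 : ((M / 18 / 8 ^ j : ℕ) : ℝ) ≤ ((M / 18 : ℕ) : ℝ) / ((8 ^ j : ℕ) : ℝ) :=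
      Nat.cast_div_le
    have h6 : ((M / 18 : ℕ) : ℝ) / ((8 ^ j : ℕ) : ℝ) = ((M / 18 : ℕ) : ℝ) * (1 / 8) ^ j := by
      push_cast
      rw [one_div_pow]
      ring
    exact le_trans (by exact_mod_cast h2) (h5.trans h6.le)
  have h2 : ∑ j ∈ range J, (dd j : ℝ) * (((range (n j)).filter (fun i => mm j i < M)).card : ℝ)
      ≤ ∑ j ∈ range (J + 1),
        (dd j : ℝ) * (((range (n j)).filter (fun i => mm j i < M)).card : ℝ) := by
    rw [Finset.sum_range_succ]
    have : (0 : ℝ) ≤ (dd J : ℝ) * (((range (n J)).filter (fun i => mm J i < M)).card : ℝ) := by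
      positivity
    linarith only [this]
  refine h2.trans ?_
  rw [Finset.sum_range_succ']
  have h3 : ∑ j ∈ range J, (dd (j + 1) : ℝ) *
      (((range (n (j + 1))).filter (fun i => mm (j + 1) i < M)).card : ℝ)
      ≤ ∑ j ∈ range J, 21 * ((M / 18 : ℕ) : ℝ) * (1 / 8) ^ j := by
    apply Finset.sum_le_sum
    intro j _
    have := h1 j
    simp only [dd]
    push_cast
    linarith only [this]
  rw [← Finset.mul_sum] at h3
  have h4 := geom_le (1 / 8) (by norm_num) (by norm_num) J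
  have h5 : (0 : ℝ) ≤ 21 * ((M / 18 : ℕ) : ℝ) := by positivity
  have h6 := mul_le_mul_of_nonneg_left h4 h5
  have h7 : 12 * ((range (n 0)).filter (fun i => mm 0 i < M)).card + 24 * (M / 18) ≤ 4 * M := by
    omega
  have h8 : (12 : ℝ) * (((range (n 0)).filter (fun i => mm 0 i < M)).card : ℝ)
      + 24 * ((M / 18 : ℕ) : ℝ) ≤ 4 * M := by exact_mod_cast h7
  simp only [dd]
  simp only [dd] at h3
  push_cast at h3 ⊢
  linarith only [h3, h6, h8]

theorem start_le (J : ℕ) (l : X → ℝ) (hl : ∀ x, 0 ≤ l x) (hs : ∑ x, l x ≤ 1) (n : ℕ → ℕ) :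
    ∑ j ∈ range J, (dd j : ℝ) * ∑ i ∈ range (n j), ord l (mm j i) ≤ 4 := by
  have h := abel ((range J).sigma (fun j => range (n j))) (fun a => (dd a.1 : ℝ))
    (fun a => mm a.1 a.2) (ord l) 4 (by norm_num) (ord_nonneg l) (ord_succ_le l)
    (sum_ord_le l hl hs) (by
      intro M
      refine le_trans (le_of_eq ?_) (count_mm J n M)
      rw [Finset.sum_filter, Finset.sum_sigma]
      apply Finset.sum_congr rfl
      intro j _
      rw [← Finset.sum_filter]
      simp only [Finset.sum_const, nsmul_eq_mul]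
      ring)
  rw [Finset.sum_sigma] at h
  refine le_trans (le_of_eq ?_) h
  apply Finset.sum_congr rfl
  intro j _
  rw [Finset.mul_sum]

/-- The potential. -/
noncomputable def PP (J : ℕ) (l : X → ℝ) (ψ : X → ℕ) (n : ℕ → ℕ) : ℝ :=
  ∑ x, l x * (ff (ψ x) : ℝ) + ∑ j ∈ range J, (dd j : ℝ) * ∑ i ∈ range (n j), ord l (mm j i)

theorem sum_ord_mono (l : X → ℝ) (j : ℕ) {a b : ℕ} (h : a ≤ b) :
    ∑ i ∈ range a, ord l (mm j i) ≤ ∑ i ∈ range b, ord l (mm j i) :=
  Finset.sum_le_sum_of_subset_of_nonneg (Finset.range_mono h) (fun _ _ _ => ord_nonneg l _)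

theorem cnt_pos (φ ψ : X → ℕ) (x : X) (hx : ψ x < φ x) : 0 < cnt φ ψ (ψ x) := by
  unfold cnt
  apply Finset.card_pos.mpr
  exact ⟨x, by simp only [mem_filter, mem_univ, hx, Std.le_refl, and_self]⟩

theorem PP_step (J : ℕ) (l : X → ℝ) (φ ψ : X → ℕ) (x : X) (hx : ψ x < φ x) (hJ : ψ x < J)
    (hlx : l x ≤ ord l (mm (ψ x) (cnt φ ψ (ψ x) - 1))) :
    PP J l (Function.update ψ x (ψ x + 1)) (cnt φ (Function.update ψ x (ψ x + 1)))
      ≤ PP J l ψ (cnt φ ψ) := by
  unfold PP
  have h1 : ∑ y, l y * (ff (Function.update ψ x (ψ x + 1) y) : ℝ)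
      = ∑ y, l y * (ff (ψ y) : ℝ) + l x * dd (ψ x) := by
    have h : ∀ y, l y * (ff (Function.update ψ x (ψ x + 1) y) : ℝ)
        = l y * (ff (ψ y) : ℝ) + if y = x then l x * dd (ψ x) else 0 := by
      intro y
      by_cases hyx : y = x
      · subst hyx
        simp only [Function.update_self, ff_succ, Nat.cast_add, ↓reduceIte]
        ring
      · rw [Function.update_of_ne hyx]
        simp [hyx]
    rw [Finset.sum_congr rfl (fun y _ => h y), Finset.sum_add_distrib]
    simp only [sum_ite_eq', mem_univ, ↓reduceIte]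
  rw [h1]
  have hmem : ψ x ∈ range J := by simpa using hJ
  rw [← Finset.add_sum_erase _ _ hmem, ← Finset.add_sum_erase (range J)
    (fun j => (dd j : ℝ) * ∑ i ∈ range (cnt φ ψ j), ord l (mm j i)) hmem]
  have h2 : ∑ j ∈ (range J).erase (ψ x),
      (dd j : ℝ) * ∑ i ∈ range (cnt φ (Function.update ψ x (ψ x + 1)) j), ord l (mm j i)
      ≤ ∑ j ∈ (range J).erase (ψ x), (dd j : ℝ) * ∑ i ∈ range (cnt φ ψ j), ord l (mm j i) := by
    apply Finset.sum_le_sum
    intro j _
    exact mul_le_mul_of_nonneg_left (sum_ord_mono l j (cnt_step_le φ ψ x j)) (by positivity)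
  have h3 := sum_ord_mono l (ψ x) (cnt_step_self φ ψ x hx)
  have h4 : ∑ i ∈ range (cnt φ ψ (ψ x)), ord l (mm (ψ x) i)
      = ∑ i ∈ range (cnt φ ψ (ψ x) - 1), ord l (mm (ψ x) i)
        + ord l (mm (ψ x) (cnt φ ψ (ψ x) - 1)) := by
    rw [← Finset.sum_range_succ, Nat.sub_add_cancel (cnt_pos φ ψ x hx)]
  have h5 : (0 : ℝ) ≤ dd (ψ x) := by positivity
  have h6 := mul_le_mul_of_nonneg_left h3 h5
  have h7 := mul_le_mul_of_nonneg_left hlx h5
  rw [h4]
  linarith only [h2, h6, h7]

theorem exists_valid (J : ℕ) (F : Finset (Finset X)) (lam : Finset X → X → ℝ)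
    (hl : ∀ H ∈ F, ∀ x, 0 ≤ lam H x) (hsum : ∀ H ∈ F, ∑ x, lam H x ≤ 1)
    (hsupp : ∀ H ∈ F, ∀ x, x ∉ H → lam H x = 0) (φ : X → ℕ) (hφ : ∀ x, φ x ≤ J)
    (H : Finset X) (hH : H ∈ F) :
    ∃ ψ : X → ℕ, (∀ x, ψ x ≤ φ x) ∧ diffSet φ ψ ⊆ H ∧
      (∃ H' ∈ F, PP J (lam H') ψ (cnt φ ψ) ≤ 4) ∧
      ∀ H' ∈ F, PP J (lam H') ψ (cnt φ ψ) ≤ 4 → ∀ x, ψ x < φ x →
        ord (lam H') (mm (ψ x) (cnt φ ψ (ψ x) - 1)) < lam H' x := by
  classical
  set S : Finset (X → ℕ) := (Fintype.piFinset (fun x => range (φ x + 1))).filter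
    (fun ψ => diffSet φ ψ ⊆ H ∧ ∃ H' ∈ F, PP J (lam H') ψ (cnt φ ψ) ≤ 4) with hS
  have hne : S.Nonempty := by
    refine ⟨fun x => if x ∈ H then 0 else φ x, ?_⟩
    rw [hS, Finset.mem_filter]
    refine ⟨?_, ?_, H, hH, ?_⟩
    · rw [Fintype.mem_piFinset]
      intro x
      simp only [mem_range]
      split_ifs <;> omega
    · intro x hx
      rw [mem_diffSet] at hx
      by_contra hxH
      simp [hxH] at hx
    · unfold PP
      have h1 : ∑ x, lam H x * (ff (if x ∈ H then 0 else φ x : ℕ) : ℝ) = 0 := by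
        apply Finset.sum_eq_zero
        intro x _
        by_cases hxH : x ∈ H
        · simp [hxH, ff]
        · simp [hsupp H hH x hxH]
      rw [h1, zero_add]
      exact start_le J _ (hl H hH) (hsum H hH) _
  obtain ⟨ψ, hψ⟩ := S.exists_maximal hne
  have hψS : ψ ∈ S := hψ.prop
  have hψS' := hψS
  rw [hS, Finset.mem_filter, Fintype.mem_piFinset] at hψS'
  obtain ⟨hle, hsub, hex⟩ := hψS'
  have hle' : ∀ x, ψ x ≤ φ x := by
    intro x
    have := hle x
    simp at this
    omega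
  refine ⟨ψ, hle', hsub, hex, ?_⟩
  intro H' hH' hA x hx
  by_contra hcon
  push Not at hcon
  have hstep := PP_step J (lam H') φ ψ x hx (lt_of_lt_of_le hx (hφ x)) hcon
  have hnew : Function.update ψ x (ψ x + 1) ∈ S := by
    rw [hS, Finset.mem_filter, Fintype.mem_piFinset]
    refine ⟨?_, ?_, H', hH', hstep.trans hA⟩
    · intro y
      by_cases hyx : y = x
      · subst hyx
        simp
        omega
      · rw [Function.update_of_ne hyx]
        exact hle y
    · intro y hy
      apply hsub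
      rw [mem_diffSet] at hy ⊢
      by_cases hyx : y = x
      · subst hyx; exact hx
      · rw [Function.update_of_ne hyx] at hy
        exact hy
  have hge : ψ ≤ Function.update ψ x (ψ x + 1) := by
    intro y
    by_cases hyx : y = x
    · subst hyx; simp only [Function.update_self, le_add_iff_nonneg_right, zero_le]
    · rw [Function.update_of_ne hyx]
  have := hψ.le_of_ge hnew hge x
  simp only [Function.update_self, add_le_iff_nonpos_right, nonpos_iff_eq_zero, one_ne_zero] at this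

end Vale.Agent.N034
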