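import Vale.Agent.N034.Core
import Vale.Agent.P034.H953.Scale

/-!
The cost inequality for nonnegative vectors, all cost levels, and the thresholds.
-/

set_option linter.all false

namespace Vale.Agent.N034

open Finset Vale.Agent.P034
open Vale.Agent.P034.H953 (emb emb_apply emb_map_inj gcop gcop_cost gcop_cover)

variable {X : Type*} [Fintype X] [DecidableEq X]

theorem cost_ineq (F : Set (Finset X)) (p : X → ℝ) (hp : ∀ x, 0 ≤ p x)
    (g : Finset X → ℝ) (hg : ∀ S, 0 ≤ g S)
    (hF : ∀ H ∈ F, 1 ≤ ∑ S ∈ H.powerset, g S) :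
    ∃ G : Finset (Finset X), Covers G F ∧
      (∑ S ∈ G, ∏ x ∈ S, (p x / 97)) * (1 - ∑ S : Finset X, g S * ∏ x ∈ S, p x) ≤ 1 / 4 := by
  classical
  set 𝒞 : Finset (Finset (Finset X)) := univ.filter (fun G => Covers G F) with h𝒞
  have hne : 𝒞.Nonempty := by
    refine ⟨{∅}, ?_⟩
    rw [h𝒞, mem_filter]
    exact ⟨mem_univ _, fun H _ => ⟨∅, mem_singleton_self _, Finset.empty_subset _⟩⟩
  obtain ⟨G0, hG0, hmin⟩ := 𝒞.exists_min_image (fun G => ∑ S ∈ G, ∏ x ∈ S, (p x / 97)) hne
  rw [h𝒞, mem_filter] at hG0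
  refine ⟨G0, hG0.2, ?_⟩
  set c := ∑ S ∈ G0, ∏ x ∈ S, (p x / 97) with hc
  have hc0 : 0 ≤ c := Finset.sum_nonneg (fun S _ => Finset.prod_nonneg (fun x _ => by
    have := hp x; positivity))
  have hstep : ∀ δ : ℝ, 0 < δ →
      c * (1 - ∑ S : Finset X, g S * ∏ x ∈ S, (p x + δ)) ≤ 1 / 4 := by
    intro δ hδ
    have h := core F.toFinset g hg (fun H hH => hF H (Set.mem_toFinset.mp hH))
      (fun x => (p x + δ) / 97) (fun x => by have := hp x; positivity) c hc0 (by
        intro G hG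
        refine (hmin G ?_).trans ?_
        · rw [h𝒞, mem_filter]
          exact ⟨mem_univ _, fun H hH => hG H (Set.mem_toFinset.mpr hH)⟩
        · apply Finset.sum_le_sum
          intro S _
          apply Finset.prod_le_prod
          · intro x _
            have := hp x
            positivity
          · intro x _
            apply div_le_div_of_nonneg_right _ (by norm_num)
            linarith only [hδ])
    have e : ∀ x, 97 * ((p x + δ) / 97) = p x + δ := fun x => by ring
    simpa only [e] using h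
  have hcont : Filter.Tendsto
      (fun δ : ℝ => c * (1 - ∑ S : Finset X, g S * ∏ x ∈ S, (p x + δ)))
      (nhdsWithin 0 (Set.Ioi 0))
      (nhds (c * (1 - ∑ S : Finset X, g S * ∏ x ∈ S, (p x + 0)))) := by
    have : Continuous (fun δ : ℝ => c * (1 - ∑ S : Finset X, g S * ∏ x ∈ S, (p x + δ))) := by
      fun_prop
    exact (this.tendsto 0).mono_left nhdsWithin_le_nhds
  simp only [add_zero] at hcont
  apply le_of_tendsto hcont
  filter_upwards [self_mem_nhdsWithin] with δ hδ
  exact hstep δ hδ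

theorem isSmall_of_frac (F : Set (Finset X)) (p : ℝ) (hp : 0 ≤ p)
    (g : Finset X → ℝ) (hg : IsFracCover g F) (hw : fracCost g p ≤ 1 / 2) :
    IsSmall (p / 97) F := by
  obtain ⟨G, hG, hcost⟩ := cost_ineq F (fun _ => p) (fun _ => hp) g (fun S => (hg.1 S).1) hg.2
  refine ⟨G, hG, ?_⟩
  unfold coverCost
  unfold fracCost at hw
  simp only [Finset.prod_const] at hcost
  have h0 : 0 ≤ ∑ S ∈ G, (p / 97) ^ S.card := Finset.sum_nonneg (fun S _ => by positivity)
  nlinarith only [hcost, hw, h0]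

theorem threshold_le (F : Set (Finset X)) (h0 : ∅ ∉ F) :
    fracExpThreshold F ≤ 97 * expThreshold F := by
  obtain ⟨⟨h1, h2, g, h3, h4⟩, _⟩ := isGreatest_frac F h0
  have h5 := isSmall_of_frac F _ h1 g h3 h4
  have h6 := (isGreatest_small F h0).2 (show fracExpThreshold F / 97 ∈ smallParams F from
    ⟨by positivity, by linarith only [h2, h1], h5⟩)
  linarith only [h6]

theorem threshold_ge (F : Set (Finset X)) (h0 : ∅ ∉ F) :
    expThreshold F ≤ fracExpThreshold F := by
  apply (isGreatest_frac F h0).2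
  obtain ⟨⟨a, b, G, hG, hcost⟩, _⟩ := isGreatest_small F h0
  refine ⟨a, b, fun S => if S ∈ G then 1 else 0, ⟨?_, ?_⟩, ?_⟩
  · intro S
    show 0 ≤ (if S ∈ G then (1 : ℝ) else 0) ∧ (if S ∈ G then (1 : ℝ) else 0) ≤ 1
    split_ifs <;> norm_num
  · intro H hH
    obtain ⟨S, hS, hSH⟩ := hG H hH
    have h4 := Finset.single_le_sum (f := fun S : Finset X => if S ∈ G then (1 : ℝ) else 0)
      (fun S _ => by
        show 0 ≤ (if S ∈ G then (1 : ℝ) else 0)
        split_ifs <;> norm_num) (Finset.mem_powerset.mpr hSH)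
    simp only [if_pos hS] at h4
    exact h4
  · refine le_trans (le_of_eq ?_) hcost
    unfold fracCost coverCost
    simp only [ite_mul, one_mul, zero_mul]
    rw [Finset.sum_ite_mem, Finset.univ_inter]

/-- The covers of `M` disjoint copies. -/
theorem copies_cost (M : ℕ) (F : Finset (Finset X)) (q : X → ℝ) (hq : ∀ x, 0 < q x) (ε : ℝ)
    (hε : ∀ G : Finset (Finset X), (∀ H ∈ F, ∃ S ∈ G, S ⊆ H) → ε ≤ ∑ S ∈ G, ∏ x ∈ S, q x)
    (hM : M * ε ≤ 1) (G' : Finset (Finset (Fin M × X)))
    (hG' : ∀ H' ∈ (univ : Finset (Fin M)).biUnion (fun i => F.image (fun H => H.map (emb X M i))),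
      ∃ S ∈ G', S ⊆ H') :
    M * ε ≤ ∑ S ∈ G', ∏ x ∈ S, q x.2 := by
  classical
  have hnn : ∀ S : Finset (Fin M × X), 0 ≤ ∏ x ∈ S, q x.2 :=
    fun S => Finset.prod_nonneg (fun x _ => (hq _).le)
  by_cases h0 : ∅ ∈ G'
  · have := Finset.single_le_sum (f := fun S : Finset (Fin M × X) => ∏ x ∈ S, q x.2)
      (fun S _ => hnn S) h0
    simp only [prod_empty] at this
    linarith only [this, hM]
  · set Gi : Fin M → Finset (Finset X) :=
      fun i => univ.filter (fun S => S.map (emb X M i) ∈ G') with hGi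
    have hcov : ∀ i, ε ≤ ∑ S ∈ Gi i, ∏ x ∈ S, q x := by
      intro i
      apply hε
      intro H hH
      obtain ⟨S', hS', hsub⟩ := hG' (H.map (emb X M i)) (by
        rw [mem_biUnion]
        exact ⟨i, mem_univ _, mem_image_of_mem _ hH⟩)
      rw [Finset.subset_map_iff] at hsub
      obtain ⟨S, hS, rfl⟩ := hsub
      refine ⟨S, ?_, hS⟩
      rw [hGi]
      simp only [mem_filter, mem_univ, true_and]
      exact hS'
    have h1 : (M : ℝ) * ε ≤ ∑ i : Fin M, ∑ S ∈ Gi i, ∏ x ∈ S, q x := by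
      have := Finset.sum_le_sum (fun i (_ : i ∈ (univ : Finset (Fin M))) => hcov i)
      simpa using this
    have h2 : ∑ i : Fin M, ∑ S ∈ Gi i, ∏ x ∈ S, q x
        = ∑ a ∈ (univ : Finset (Fin M)).sigma Gi, ∏ x ∈ a.2.map (emb X M a.1), q x.2 := by
      rw [Finset.sum_sigma]
      apply Finset.sum_congr rfl
      intro i _
      apply Finset.sum_congr rfl
      intro S _
      rw [Finset.prod_map]
      rfl
    have h3 : ∑ a ∈ (univ : Finset (Fin M)).sigma Gi, ∏ x ∈ a.2.map (emb X M a.1), q x.2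
        = ∑ S' ∈ ((univ : Finset (Fin M)).sigma Gi).image (fun a => a.2.map (emb X M a.1)),
            ∏ x ∈ S', q x.2 := by
      rw [Finset.sum_image]
      rintro ⟨i, S⟩ hS ⟨i', S'⟩ hS' heq
      simp only at heq
      have hne : S.Nonempty := by
        rw [Finset.mem_coe, mem_sigma] at hS
        have h4 := hS.2
        rw [hGi] at h4
        simp only [mem_filter, mem_univ, true_and] at h4
        by_contra hcon
        rw [Finset.not_nonempty_iff_eq_empty] at hcon
        rw [hcon, Finset.map_empty] at h4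
        exact h0 h4
      obtain ⟨h5, h6⟩ := emb_map_inj hne heq
      subst h5; subst h6; rfl
    have h4 : ∑ S' ∈ ((univ : Finset (Fin M)).sigma Gi).image (fun a => a.2.map (emb X M a.1)),
            ∏ x ∈ S', q x.2 ≤ ∑ S ∈ G', ∏ x ∈ S, q x.2 := by
      apply Finset.sum_le_sum_of_subset_of_nonneg
      · intro S' hS'
        rw [mem_image] at hS'
        obtain ⟨⟨i, S⟩, ha, rfl⟩ := hS'
        rw [mem_sigma] at ha
        have h5 := ha.2
        rw [hGi] at h5
        simpa only [mem_filter, mem_univ, true_and] using h5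
      · intro S _ _
        exact hnn S
    linarith only [h1, h2, h3, h4]

theorem scale_pos0 (F : Finset (Finset X)) (p : X → ℝ) (hp : ∀ x, 0 < p x)
    (g : Finset X → ℝ) (hg : ∀ S, 0 ≤ g S) (hg0 : g ∅ = 0)
    (hF : ∀ H ∈ F, 1 ≤ ∑ S ∈ H.powerset, g S) :
    ∃ G : Finset (Finset X), (∀ H ∈ F, ∃ S ∈ G, S ⊆ H) ∧
      ∑ S ∈ G, ∏ x ∈ S, (p x / 130) ≤ ∑ S : Finset X, g S * ∏ x ∈ S, p x := by
  classical
  have hnn : ∀ S : Finset X, 0 ≤ g S * ∏ x ∈ S, p x :=
    fun S => mul_nonneg (hg S) (Finset.prod_nonneg (fun x _ => (hp x).le))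
  set ε := ∑ S : Finset X, g S * ∏ x ∈ S, p x with hε
  rcases F.eq_empty_or_nonempty with rfl | ⟨H0, hH0⟩
  · refine ⟨∅, by simp, ?_⟩
    rw [Finset.sum_empty]
    exact Finset.sum_nonneg (fun S _ => hnn S)
  by_cases hε1 : 1 ≤ ε
  · exact ⟨{∅}, fun H _ => ⟨∅, mem_singleton_self _, Finset.empty_subset _⟩, by simpa using hε1⟩
  push Not at hε1
  have hεpos : 0 < ε := by
    have h1 := hF H0 hH0
    obtain ⟨S, hS, hgS⟩ : ∃ S ∈ H0.powerset, 0 < g S := by
      by_contra hcon
      push Not at hcon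
      have := Finset.sum_nonpos hcon
      linarith only [h1, this]
    have h2 : 0 < g S * ∏ x ∈ S, p x :=
      mul_pos hgS (Finset.prod_pos (fun x _ => hp x))
    have h3 := Finset.single_le_sum (f := fun S : Finset X => g S * ∏ x ∈ S, p x)
      (fun S _ => hnn S) (mem_univ S)
    exact h2.trans_le h3
  by_contra hcon
  push Not at hcon
  set M : ℕ := ⌊1 / ε⌋₊ with hM
  have hM1 : (M : ℝ) * ε ≤ 1 := by
    have : (M : ℝ) ≤ 1 / ε := Nat.floor_le (by positivity)
    rwa [le_div_iff₀ hεpos] at this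
  have hM2 : 1 / 2 ≤ (M : ℝ) * ε := by
    have h1 : 1 / ε < (M : ℝ) + 1 := Nat.lt_floor_add_one _
    rw [div_lt_iff₀ hεpos] at h1
    have h2 : (1 : ℝ) ≤ M := by
      have : 1 ≤ M := by
        rw [hM]
        apply Nat.le_floor
        rw [le_div_iff₀ hεpos]
        push_cast
        linarith only [hε1]
      exact_mod_cast this
    nlinarith only [h1, h2, hεpos, hε1]
  have hcore := core ((univ : Finset (Fin M)).biUnion (fun i => F.image (fun H => H.map (emb X M i))))
    (gcop M g)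
    (fun S' => Finset.sum_nonneg (fun i _ => Finset.sum_nonneg (fun S _ => by
      split_ifs; exacts [hg S, le_rfl])))
    (by
      intro H' hH'
      rw [mem_biUnion] at hH'
      obtain ⟨i, _, hi⟩ := hH'
      rw [mem_image] at hi
      obtain ⟨H, hH, rfl⟩ := hi
      exact (hF H hH).trans (gcop_cover M g hg i H))
    (fun x => p x.2 / 130) (fun x => by have := hp x.2; positivity) (M * ε) (by positivity)
    (by
      intro G' hG'
      exact copies_cost M F (fun x => p x / 130) (fun x => by have := hp x; positivity) ε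
        (fun G hG => (hcon G hG).le) hM1 G' hG')
  rw [gcop_cost] at hcore
  have h1 : ∀ i : Fin M, ∑ S : Finset X, g S * ∏ x ∈ S.map (emb X M i), (97 * (p x.2 / 130))
      ≤ 97 / 130 * ε := by
    intro i
    rw [hε, Finset.mul_sum]
    apply Finset.sum_le_sum
    intro S _
    rw [Finset.prod_map]
    simp only [emb_apply]
    rcases S.eq_empty_or_nonempty with rfl | hS
    · simp [hg0]
    · have h2 : ∏ x ∈ S, (97 * (p x / 130)) = (97 / 130) ^ S.card * ∏ x ∈ S, p x := by
        rw [← Finset.prod_const, ← Finset.prod_mul_distrib]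
        apply Finset.prod_congr rfl
        intro x _
        ring
      rw [h2]
      have h3 : (97 / 130 : ℝ) ^ S.card ≤ (97 / 130) ^ 1 :=
        pow_le_pow_of_le_one (by norm_num) (by norm_num) (Finset.card_pos.mpr hS)
      rw [pow_one] at h3
      have h4 := mul_le_mul_of_nonneg_left h3 (hnn S)
      linarith only [h4]
  have h2 := Finset.sum_le_sum (fun i (_ : i ∈ (univ : Finset (Fin M))) => h1 i)
  rw [Finset.sum_const, Finset.card_univ, Fintype.card_fin, nsmul_eq_mul] at h2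
  have h3 : (M : ℝ) * (97 / 130 * ε) = 97 / 130 * (M * ε) := by ring
  rw [h3] at h2
  have h4 := mul_le_mul_of_nonneg_left h2 (show 0 ≤ (M : ℝ) * ε by positivity)
  nlinarith only [h4, hcore, mul_nonneg (sub_nonneg.mpr hM1) (sub_nonneg.mpr hM2), hM1, hM2]

theorem scale_pos (F : Finset (Finset X)) (p : X → ℝ) (hp : ∀ x, 0 < p x)
    (g : Finset X → ℝ) (hg : ∀ S, 0 ≤ g S)
    (hF : ∀ H ∈ F, 1 ≤ ∑ S ∈ H.powerset, g S) :
    ∃ G : Finset (Finset X), (∀ H ∈ F, ∃ S ∈ G, S ⊆ H) ∧
      ∑ S ∈ G, ∏ x ∈ S, (p x / 130) ≤ ∑ S : Finset X, g S * ∏ x ∈ S, p x := by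
  classical
  have hnn : ∀ S : Finset X, 0 ≤ g S * ∏ x ∈ S, p x :=
    fun S => mul_nonneg (hg S) (Finset.prod_nonneg (fun x _ => (hp x).le))
  set t := ∑ S : Finset X, g S * ∏ x ∈ S, p x with ht
  by_cases ht1 : 1 ≤ t
  · exact ⟨{∅}, fun H _ => ⟨∅, mem_singleton_self _, Finset.empty_subset _⟩, by simpa using ht1⟩
  push Not at ht1
  have hsplit : t = g ∅ + ∑ S ∈ univ.erase (∅ : Finset X), g S * ∏ x ∈ S, p x := by
    rw [ht, ← Finset.add_sum_erase _ _ (mem_univ (∅ : Finset X))]
    simp only [prod_empty, mul_one]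
  have hrest : 0 ≤ ∑ S ∈ univ.erase (∅ : Finset X), g S * ∏ x ∈ S, p x :=
    Finset.sum_nonneg (fun S _ => hnn S)
  have hγ0 : 0 ≤ g ∅ := hg ∅
  have h1γ : 0 < 1 - g ∅ := by linarith only [ht1, hsplit, hrest]
  obtain ⟨G, hG, hcost⟩ := scale_pos0 F p hp (fun S => if S = ∅ then 0 else g S / (1 - g ∅))
    (by
      intro S
      split_ifs
      · exact le_rfl
      · exact div_nonneg (hg S) h1γ.le)
    (by simp)
    (by
      intro H hH
      have h1 := hF H hH
      have hmem : (∅ : Finset X) ∈ H.powerset := by simp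
      rw [← Finset.add_sum_erase _ _ hmem] at h1
      rw [← Finset.add_sum_erase _ _ hmem]
      have h2 : ∑ S ∈ H.powerset.erase ∅, (if S = ∅ then 0 else g S / (1 - g ∅))
          = (∑ S ∈ H.powerset.erase ∅, g S) / (1 - g ∅) := by
        rw [Finset.sum_div]
        apply Finset.sum_congr rfl
        intro S hS
        rw [if_neg (Finset.ne_of_mem_erase hS)]
      rw [h2]
      simp only [if_true, zero_add]
      rw [le_div_iff₀ h1γ]
      linarith only [h1])
  refine ⟨G, hG, hcost.trans ?_⟩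
  rw [← Finset.add_sum_erase _ _ (mem_univ (∅ : Finset X))]
  have h3 : ∑ S ∈ univ.erase (∅ : Finset X),
      (if S = ∅ then 0 else g S / (1 - g ∅)) * ∏ x ∈ S, p x
      = (∑ S ∈ univ.erase (∅ : Finset X), g S * ∏ x ∈ S, p x) / (1 - g ∅) := by
    rw [Finset.sum_div]
    apply Finset.sum_congr rfl
    intro S hS
    rw [if_neg (Finset.ne_of_mem_erase hS)]
    ring
  rw [h3]
  simp only [if_true, zero_mul, zero_add]
  rw [div_le_iff₀ h1γ]
  nlinarith only [hsplit, ht1, hγ0, hrest]

/-- The rescaled integrality gap of the covering problem, finite ground sets. -/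
theorem scale_nonneg (F : Set (Finset X)) (p : X → ℝ) (hp : ∀ x, 0 ≤ p x)
    (g : Finset X → ℝ) (hg : ∀ S, 0 ≤ g S)
    (hF : ∀ H ∈ F, 1 ≤ ∑ S ∈ H.powerset, g S) :
    ∃ G : Finset (Finset X), Covers G F ∧
      ∑ S ∈ G, ∏ x ∈ S, (p x / 130) ≤ ∑ S : Finset X, g S * ∏ x ∈ S, p x := by
  classical
  set 𝒞 : Finset (Finset (Finset X)) := univ.filter (fun G => Covers G F) with h𝒞
  have hne : 𝒞.Nonempty := by
    refine ⟨{∅}, ?_⟩
    rw [h𝒞, mem_filter]
    exact ⟨mem_univ _, fun H _ => ⟨∅, mem_singleton_self _, Finset.empty_subset _⟩⟩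
  obtain ⟨G0, hG0, hmin⟩ := 𝒞.exists_min_image (fun G => ∑ S ∈ G, ∏ x ∈ S, (p x / 130)) hne
  rw [h𝒞, mem_filter] at hG0
  refine ⟨G0, hG0.2, ?_⟩
  have hstep : ∀ δ : ℝ, 0 < δ → ∑ S ∈ G0, ∏ x ∈ S, (p x / 130)
      ≤ ∑ S : Finset X, g S * ∏ x ∈ S, (p x + δ) := by
    intro δ hδ
    obtain ⟨G, hG, hcost⟩ := scale_pos F.toFinset (fun x => p x + δ)
      (fun x => by have := hp x; positivity) g hg
      (fun H hH => hF H (Set.mem_toFinset.mp hH))
    refine (hmin G ?_).trans (le_trans ?_ hcost)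
    · rw [h𝒞, mem_filter]
      exact ⟨mem_univ _, fun H hH => hG H (Set.mem_toFinset.mpr hH)⟩
    · apply Finset.sum_le_sum
      intro S _
      apply Finset.prod_le_prod
      · intro x _
        have := hp x
        positivity
      · intro x _
        apply div_le_div_of_nonneg_right _ (by norm_num)
        linarith only [hδ]
  have hcont : Filter.Tendsto (fun δ : ℝ => ∑ S : Finset X, g S * ∏ x ∈ S, (p x + δ))
      (nhdsWithin 0 (Set.Ioi 0)) (nhds (∑ S : Finset X, g S * ∏ x ∈ S, (p x + 0))) := by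
    have : Continuous (fun δ : ℝ => ∑ S : Finset X, g S * ∏ x ∈ S, (p x + δ)) := by
      fun_prop
    exact (this.tendsto 0).mono_left nhdsWithin_le_nhds
  simp only [add_zero] at hcont
  apply ge_of_tendsto hcont
  filter_upwards [self_mem_nhdsWithin] with δ hδ
  exact hstep δ hδ

end Vale.Agent.N034
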